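import Vale.Agent.P197.Defs

/-! Shared interface of the proof: levels, the certificate sum, shapes. -/

namespace Vale.Agent.P197

open Equiv Finset

variable {P : Type*} [Fintype P] [DecidableEq P]

theorem mem_gr {Q K : Type*} [Fintype Q] {f : Q → K} {σ : Perm Q} :
    σ ∈ gr f ↔ ∀ x, f (σ x) = f x := by
  classical
  simp [gr]

/-- The level (antidiagonal index) of a position. -/
def lev (a b : P → ℕ) (x : P) : ℕ := a x + b x

/-- The sign of a permutation, as an integer. -/
def sgnZ (σ : Perm P) : ℤ := (Perm.sign σ : ℤ)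

/-- The certificate: a signed pairing of the squared staircase polytabloid with a Young symmetrizer. -/
noncomputable def cert (a b row col : P → ℕ) (h : (P → ℕ × ℕ) → ℤ) : ℤ :=
  ∑ r ∈ gr a, ∑ c ∈ gr b, ∑ p ∈ gr row, ∑ q ∈ gr col,
    sgnZ r * sgnZ c * sgnZ q *
      h (fun x => (lev a b (r (q (p x))), lev a b (c (q (p x)))))

/-- The coordinates `(a, b)` identify `P` with the band `n ≤ u + v < n + k`. -/
def IsBand (n k : ℕ) (a b : P → ℕ) : Prop :=
  Function.Injective (fun x => (a x, b x)) ∧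
    ∀ u v, (∃ x, a x = u ∧ b x = v) ↔ n ≤ u + v ∧ u + v < n + k

/-- The coordinates `(a, b)` identify `P` with the staircase `u + v < n`. -/
def IsStair (n : ℕ) (a b : P → ℕ) : Prop := IsBand 0 n a b

/-- The sum of the first `k` row lengths. -/
def psum (L : ℕ → ℕ) (k : ℕ) : ℕ := ∑ i ∈ range k, L i

/-- The sum of the first `k` parts of `(n, n-1, ..., 1)`. -/
def rhoSum (n k : ℕ) : ℕ := psum (fun i => n - i) k

/-- The `n`th triangular number. -/
def tri (n : ℕ) : ℕ := rhoSum n n

/-- Weakly decreasing row lengths with total `N`. -/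
def IsPart (L : ℕ → ℕ) (N : ℕ) : Prop :=
  Antitone L ∧ ∃ M, ∀ k, M ≤ k → psum L k = N

/-- `(row, col)` identify `P` with the cells `(i, j)`, `L' i ≤ j < L i`. -/
def IsSkew (L L' : ℕ → ℕ) (row col : P → ℕ) : Prop :=
  Function.Injective (fun x => (row x, col x)) ∧
    ∀ i j, (∃ x, row x = i ∧ col x = j) ↔ L' i ≤ j ∧ j < L i

/-- `(row, col)` identify `P` with the diagram of `L`. -/
def IsShape (L : ℕ → ℕ) (row col : P → ℕ) : Prop := IsSkew L (fun _ => 0) row col

/-- Dominated by the staircase `(n, ..., 1)`. -/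
def Dominated (L : ℕ → ℕ) (n : ℕ) : Prop := ∀ k, psum L k ≤ rhoSum n k

/-- Remove `K` cells, at most `h` from each column, from the bottom. -/
def stripShape (L : ℕ → ℕ) (h K : ℕ) (i : ℕ) : ℕ :=
  L i + min K (psum (fun j => L (i + 1 + j)) h) - min K (psum (fun j => L (i + j)) h)

theorem IsPart.eventually_zero {L : ℕ → ℕ} {N : ℕ} (hL : IsPart L N) :
    ∃ M, (∀ i, M ≤ i → L i = 0) ∧ ∀ k, M ≤ k → psum L k = N := by
  obtain ⟨_, M, hM⟩ := hL
  refine ⟨M, fun i hi => ?_, hM⟩
  have h₁ := hM i hi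
  have h₂ := hM (i + 1) (by omega)
  rw [psum, sum_range_succ] at h₂
  rw [psum] at h₁
  omega

theorem exists_isSkew {L L' : ℕ → ℕ} {N N' : ℕ} (hL : IsPart L N) (hL' : IsPart L' N')
    (hle : ∀ i, L' i ≤ L i) (hcard : N = N' + Fintype.card P) :
    ∃ row col : P → ℕ, IsSkew L L' row col := by
  obtain ⟨M, hzero, hsum⟩ := hL.eventually_zero
  obtain ⟨M', hzero', hsum'⟩ := hL'.eventually_zero
  have e₁ := hsum (max M M') (le_max_left _ _)
  have e₂ := hsum' (max M M') (le_max_right _ _)
  let C := (range (max M M')).sigma (fun i => Finset.Ico (L' i) (L i))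
  have hC : C.card = Fintype.card P := by
    simp only [C, card_sigma, Nat.card_Ico]
    have : ∑ i ∈ range (max M M'), (L i - L' i) + psum L' (max M M') = psum L (max M M') := by
      rw [psum, psum, ← sum_add_distrib]
      exact sum_congr rfl fun i _ => Nat.sub_add_cancel (hle i)
    omega
  let e : P ≃ C := Fintype.equivOfCardEq (by simp [hC])
  refine ⟨fun x => (e x).1.1, fun x => (e x).1.2, ?_, fun i j => ⟨?_, ?_⟩⟩
  · intro x y hxy
    simp only [Prod.mk.injEq] at hxy
    exact e.injective (Subtype.ext (Sigma.ext hxy.1 (heq_of_eq hxy.2)))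
  · rintro ⟨x, rfl, rfl⟩
    have := (e x).2
    simp only [C, mem_sigma, mem_Ico] at this
    exact this.2
  · rintro ⟨h₁, h₂⟩
    have hi : i < max M M' := by
      by_contra hne
      have := hzero i (le_trans (le_max_left _ _) (not_lt.mp hne))
      omega
    exact ⟨e.symm ⟨⟨i, j⟩, by simp [C, mem_sigma, mem_Ico, hi, h₁, h₂]⟩, by simp, by simp⟩

theorem IsPart.zero : IsPart (fun _ => 0) 0 :=
  ⟨fun _ _ _ => le_rfl, 0, fun k _ => by simp [psum]⟩

theorem exists_isShape {L : ℕ → ℕ} {N : ℕ} (hL : IsPart L N) (hcard : N = Fintype.card P) :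
    ∃ row col : P → ℕ, IsShape L row col :=
  exists_isSkew hL IsPart.zero (fun _ => Nat.zero_le _) (by omega)

end Vale.Agent.P197
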