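import Vale.Agent.P197.Core

/-! A nonzero certificate gives a nonzero equivariant map `S^ν → S^ρ ⊗ S^ρ`. -/

namespace Vale.Agent.P197

open Equiv Finset MonoidAlgebra
open scoped TensorProduct

section Setup

variable {P : Type*} [Fintype P] [DecidableEq P]

omit [DecidableEq P] in
theorem permCongr_mem_gr {Q : Type*} [Fintype Q] {f : Q → ℕ} {f' : P → ℕ} (e : P ≃ Q)
    (h : ∀ x, f (e x) = f' x) (σ : Perm P) : σ ∈ gr f' ↔ e.permCongr σ ∈ gr f := by
  simp only [mem_gr, Equiv.permCongr_apply]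
  constructor
  · intro hσ y
    rw [h, hσ, ← h, e.apply_symm_apply]
  · intro hσ x
    have := hσ (e x)
    rwa [e.symm_apply_apply, h, h] at this

omit [DecidableEq P] in
theorem inv_mem_gr {f : P → ℕ} {σ : Perm P} (h : σ ∈ gr f) : σ⁻¹ ∈ gr f := by
  rw [mem_gr] at h ⊢
  intro x
  rw [← h (σ⁻¹ x), Perm.inv_def, Equiv.apply_symm_apply]

omit [Fintype P] [DecidableEq P] in
theorem symm_permCongr_permCongr {Q : Type*} (e : P ≃ Q) (σ : Perm P) :
    e.symm.permCongr (e.permCongr σ) = σ := by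
  ext x
  simp [Equiv.permCongr_apply]

omit [Fintype P] [DecidableEq P] in
theorem permCongr_symm_permCongr {Q : Type*} (e : P ≃ Q) (σ : Perm Q) :
    e.permCongr (e.symm.permCongr σ) = σ := by
  ext x
  simp [Equiv.permCongr_apply]

open scoped Classical in
/-- One factor of the certificate at a state `φ`. -/
noncomputable def factor (a b : P → ℕ) (φ : P → ℕ) (y : Perm P) : ℤ :=
  ∑ r ∈ gr a, if (fun x => lev a b (r (y x))) = φ then sgnZ r else 0

theorem exists_state {a b row col : P → ℕ} {h : (P → ℕ × ℕ) → ℤ}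
    (hne : cert a b row col h ≠ 0) :
    ∃ φ₁ φ₂ : P → ℕ, (∑ p ∈ gr row, ∑ q ∈ gr col,
      sgnZ q * (factor a b φ₁ (q * p) * factor b a φ₂ (q * p))) ≠ 0 := by
  classical
  by_contra hall
  push Not at hall
  apply hne
  let T := gr a ×ˢ (gr b ×ˢ (gr row ×ˢ gr col))
  let pr : Perm P × Perm P × Perm P × Perm P → (P → ℕ) × (P → ℕ) := fun t =>
    (fun x => lev a b (t.1 ((t.2.2.2 * t.2.2.1) x)), fun x => lev a b (t.2.1 ((t.2.2.2 * t.2.2.1) x)))
  have key : cert a b row col h = ∑ φ ∈ T.image pr, h (fun x => (φ.1 x, φ.2 x)) *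
      ∑ p ∈ gr row, ∑ q ∈ gr col,
        sgnZ q * (factor a b φ.1 (q * p) * factor b a φ.2 (q * p)) := by
    have e₁ : cert a b row col h = ∑ t ∈ T, sgnZ t.1 * sgnZ t.2.1 * sgnZ t.2.2.2 *
        h (fun x => ((pr t).1 x, (pr t).2 x)) := by
      simp only [T, sum_product, cert, pr, Perm.mul_apply]
    rw [e₁, ← sum_fiberwise_of_maps_to (g := pr) (t := T.image pr) (fun t ht => mem_image_of_mem pr ht)]
    refine sum_congr rfl fun φ _ => ?_
    have hc : ∀ x, lev b a x = lev a b x := fun x => Nat.add_comm _ _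
    have e₂ : (∑ p ∈ gr row, ∑ q ∈ gr col,
        sgnZ q * (factor a b φ.1 (q * p) * factor b a φ.2 (q * p))) =
        ∑ t ∈ T, if pr t = φ then sgnZ t.1 * sgnZ t.2.1 * sgnZ t.2.2.2 else 0 := by
      have e₃ : ∀ p q, sgnZ q * (factor a b φ.1 (q * p) * factor b a φ.2 (q * p)) =
          ∑ r ∈ gr a, ∑ c ∈ gr b, if pr (r, c, p, q) = φ then sgnZ r * sgnZ c * sgnZ q else 0 := by
        intro p q
        simp only [factor, sum_mul, mul_sum, hc, pr, Prod.ext_iff, ite_and]
        rw [sum_comm]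
        refine sum_congr rfl fun r _ => sum_congr rfl fun c _ => ?_
        split_ifs <;> ring
      simp only [e₃, T, sum_product]
      rw [sum_congr rfl fun p _ => sum_comm, sum_comm]
      refine sum_congr rfl fun r _ => ?_
      rw [sum_congr rfl fun p _ => sum_comm, sum_comm]
    rw [e₂, sum_filter, mul_sum]
    refine sum_congr rfl fun t _ => ?_
    by_cases ht : pr t = φ
    · subst ht
      simp only [if_pos]
      ring
    · simp [if_neg ht]
  rw [key]
  exact sum_eq_zero fun φ _ => by rw [hall φ.1 φ.2, mul_zero]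

end Setup

variable {n : ℕ}

/-- Evaluation of a group algebra element against a function on the group. -/
noncomputable def evalAgainst (F : Perm (Fin n) → ℂ) : MonoidAlgebra ℂ (Perm (Fin n)) →ₗ[ℂ] ℂ :=
  Finsupp.linearCombination ℂ F ∘ₗ (MonoidAlgebra.coeffLinearEquiv ℂ).toLinearMap

theorem evalAgainst_single (F : Perm (Fin n) → ℂ) (g : Perm (Fin n)) (r : ℂ) :
    evalAgainst F (MonoidAlgebra.single g r) = r * F g := by
  simp [evalAgainst]

open scoped Classical in
/-- The test function on the group attached to a state `φ`. -/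
noncomputable def testFn {P : Type*} (μ : n.Partition) (m : ℕ) (e₂ : P ≃ Fin n) (φ : P → ℕ)
    (k : Perm (Fin n)) : ℂ :=
  if (fun x => m - 1 - colOf μ (k.symm (e₂ x))) = φ then ((Perm.sign k : ℤ) : ℂ) else 0

theorem evalAgainst_translate {P : Type*} [Fintype P] [DecidableEq P] (μ : n.Partition) (m : ℕ)
    (a b : P → ℕ) (hlev : ∀ x, lev a b x < m) (e₁ e₂ : P ≃ Fin n)
    (ha : ∀ x, rowOf μ (e₁ x) = a x) (hc : ∀ x, colOf μ (e₁ x) = m - 1 - lev a b x)
    (φ : P → ℕ) (g : Perm P) :
    evalAgainst (testFn μ m e₂ φ)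
      (MonoidAlgebra.single (e₂.permCongr g) 1 * (MonoidAlgebra.single (e₁.symm.trans e₂) 1 * youngSymmetrizer μ)) =
      ((gr (colOf μ)).card : ℂ) * ((Perm.sign (e₁.symm.trans e₂) : ℤ) : ℂ) *
        ((sgnZ g : ℤ) : ℂ) * ((factor a b φ g⁻¹ : ℤ) : ℂ) := by
  classical
  have hg : ∀ r : Perm P, r ∈ gr a ↔ e₁.permCongr r ∈ gr (rowOf μ) :=
    permCongr_mem_gr e₁ ha
  rw [youngSymmetrizer, sum_mul_sum]
  simp only [mul_sum, map_sum, MonoidAlgebra.single_mul_single, evalAgainst_single, one_mul]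
  rw [show ((factor a b φ g⁻¹ : ℤ) : ℂ) = ∑ r ∈ gr (rowOf μ),
      (if (fun x => lev a b ((e₁.symm.permCongr r)⁻¹ (g⁻¹ x))) = φ then
        ((Perm.sign r : ℤ) : ℂ) else 0) from ?_]
  · rw [Finset.mul_sum]
    refine sum_congr rfl fun r hr => ?_
    have hcol : ∀ c ∈ gr (colOf μ), ∀ x,
        m - 1 - colOf μ ((e₂.permCongr g * (e₁.symm.trans e₂ * (r * c))).symm (e₂ x)) =
          lev a b ((e₁.symm.permCongr r)⁻¹ (g⁻¹ x)) := by
      intro c hcm x
      have hc' : ∀ y, colOf μ (c.symm y) = colOf μ y := fun y => by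
        rw [← mem_gr.mp hcm (c.symm y), Equiv.apply_symm_apply]
      have : (e₂.permCongr g * (e₁.symm.trans e₂ * (r * c))).symm (e₂ x) =
          c.symm (e₁ ((e₁.symm.permCongr r)⁻¹ (g⁻¹ x))) := by
        have s₁ : ∀ (f : Perm P) (y : Fin n), (e₂.permCongr f).symm y = e₂ (f.symm (e₂.symm y)) :=
          fun f y => rfl
        have s₂ : ∀ (y : P), (e₁.symm.permCongr r).symm y = e₁.symm (r.symm (e₁ y)) := fun y => rfl
        simp [Perm.mul_def, Perm.inv_def, s₁, s₂]
      rw [this, hc', hc]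
      have := hlev ((e₁.symm.permCongr r)⁻¹ (g⁻¹ x))
      omega
    rw [sum_congr rfl (g := fun _ => ((Perm.sign (e₁.symm.trans e₂) : ℤ) : ℂ) * ((sgnZ g : ℤ) : ℂ) *
      (if (fun x => lev a b ((e₁.symm.permCongr r)⁻¹ (g⁻¹ x))) = φ then
        ((Perm.sign r : ℤ) : ℂ) else 0)) ?_, sum_const, nsmul_eq_mul]
    · ring
    · intro c hcm
      have e : (fun x => m - 1 - colOf μ ((e₂.permCongr g * (e₁.symm.trans e₂ * (r * c))).symm (e₂ x)))
          = fun x => lev a b ((e₁.symm.permCongr r)⁻¹ (g⁻¹ x)) := funext (hcol c hcm)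
      simp only [testFn, e]
      split
      · have s2 : ((Perm.sign c : ℤ) : ℂ) * ((Perm.sign c : ℤ) : ℂ) = 1 := by
          rw [← Int.cast_mul, ← Units.val_mul, Int.units_mul_self]; simp
        simp only [map_mul, Perm.sign_permCongr, Units.val_mul, Int.cast_mul, sgnZ]
        linear_combination ((Perm.sign (e₁.symm.trans e₂) : ℤ) : ℂ) * ((Perm.sign g : ℤ) : ℂ) *
          ((Perm.sign r : ℤ) : ℂ) * s2
      · simp
  · rw [factor, Int.cast_sum]
    refine sum_nbij' (fun r => e₁.permCongr r⁻¹) (fun r => (e₁.symm.permCongr r)⁻¹) ?_ ?_ ?_ ?_ ?_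
    · intro r hr
      exact (hg _).mp (by
        simp only [mem_gr] at hr ⊢
        intro x
        have := hr (r⁻¹ x)
        simp only [Perm.inv_def, Equiv.apply_symm_apply] at this
        exact this.symm)
    · intro r hr
      have : e₁.symm.permCongr r ∈ gr a := by
        rw [hg]
        have e : e₁.permCongr (e₁.symm.permCongr r) = r := by ext y; simp [Equiv.permCongr_apply]
        rwa [e]
      simp only [mem_gr] at this ⊢
      intro x
      have := this ((e₁.symm.permCongr r)⁻¹ x)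
      simp only [Perm.inv_def, Equiv.apply_symm_apply] at this
      exact this.symm
    · intro r _
      rw [← Equiv.permCongr_symm e₁, Equiv.symm_apply_apply, inv_inv]
    · intro r _
      rw [← Equiv.permCongr_symm e₁, inv_inv, Equiv.apply_symm_apply]
    · intro r _
      have e : (e₁.symm.permCongr (e₁.permCongr r⁻¹))⁻¹ = r := by
        rw [← Equiv.permCongr_symm e₁, Equiv.symm_apply_apply, inv_inv]
      simp only [e, Perm.sign_permCongr, map_inv, Int.units_inv_eq_self]
      split <;> simp [sgnZ]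

theorem mem_diagram_staircase (m i j : ℕ) : (i, j) ∈ diagram (staircase m) ↔ i + j < m := by
  have h : rowLengths (staircase m) = (List.range m).map fun i => m - i := by
    apply List.Perm.eq_of_sortedGE (rowLengths_sortedGE _)
    · rw [List.sortedGE_iff_getElem_ge_getElem_of_le]
      intro i j hi hj hij
      simp
      omega
    · rw [← Multiset.coe_eq_coe, rowLengths, Multiset.sort_eq]
      refine (Multiset.Nodup.ext ?_ ?_).mpr fun x => ?_
      · exact (Multiset.nodup_range m).map (fun x y hxy => Nat.succ_injective hxy)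
      · rw [Multiset.coe_nodup]
        exact List.nodup_range.map_on fun x hx y hy hxy => by simp at hx hy; omega
      · simp only [staircase, Multiset.mem_map, Multiset.mem_range, Multiset.mem_coe, List.mem_map,
          List.mem_range]
        constructor
        · rintro ⟨a, ha, rfl⟩; exact ⟨m - (a + 1), by omega, by omega⟩
        · rintro ⟨a, ha, rfl⟩; exact ⟨m - a - 1, by omega, by omega⟩
  rw [diagram, YoungDiagram.mem_ofRowLens]
  simp only [h, List.length_map, List.length_range, List.getElem_map, List.getElem_range]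
  exact ⟨fun ⟨h₁, h₂⟩ => by omega, fun h₁ => ⟨by omega, by omega⟩⟩

theorem exists_equiv_tableau {P : Type*} [Fintype P] (μ : n.Partition) (f g : P → ℕ)
    (hinj : Function.Injective fun x => (f x, g x))
    (hsurj : ∀ i j, (∃ x, f x = i ∧ g x = j) ↔ (i, j) ∈ diagram μ) :
    ∃ e : P ≃ Fin n, (∀ x, rowOf μ (e x) = f x) ∧ ∀ x, colOf μ (e x) = g x := by
  let φ : P → (diagram μ).cells := fun x =>
    ⟨(f x, g x), (diagram μ).mem_cells _ |>.mpr ((hsurj _ _).mp ⟨x, rfl, rfl⟩)⟩
  have hφ : Function.Bijective φ := by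
    refine ⟨fun x y hxy => hinj (congrArg Subtype.val hxy), fun ⟨⟨i, j⟩, hc⟩ => ?_⟩
    obtain ⟨x, hx, hy⟩ := (hsurj i j).mpr (((diagram μ).mem_cells _).mp hc)
    exact ⟨x, Subtype.ext (by simp [φ, hx, hy])⟩
  refine ⟨(Equiv.ofBijective φ hφ).trans (tableau μ).symm, fun x => ?_, fun x => ?_⟩ <;>
    simp [rowOf, colOf, φ]

theorem isBand_swap {P : Type*} [Fintype P] {k l : ℕ} {a b : P → ℕ} (h : IsBand k l a b) :
    IsBand k l b a := by
  refine ⟨fun x y hxy => h.1 ?_, fun u v => ?_⟩
  · simp only [Prod.mk.injEq] at hxy ⊢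
    exact ⟨hxy.2, hxy.1⟩
  · rw [Nat.add_comm u v, ← h.2 v u]
    simp [and_comm]

/-- A nonzero certificate makes the Kronecker coefficient positive. -/
theorem kronecker_pos_of_cert {m : ℕ} {ν : (m * (m + 1) / 2).Partition} {P : Type*} [Fintype P]
    [DecidableEq P] {a b row col : P → ℕ} (hab : IsStair m a b)
    (hshape : IsShape (diagram ν).rowLen row col) {h : (P → ℕ × ℕ) → ℤ}
    (hne : cert a b row col h ≠ 0) : 0 < kronecker (staircase m) (staircase m) ν := by
  classical
  obtain ⟨φ₁, φ₂, hφ⟩ := exists_state hne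
  have key : ∀ {a b : P → ℕ}, IsStair m a b → ∃ e : P ≃ Fin (m * (m + 1) / 2),
      (∀ x, rowOf (staircase m) (e x) = a x) ∧
      (∀ x, colOf (staircase m) (e x) = m - 1 - lev a b x) ∧ ∀ x, lev a b x < m := by
    intro a b hab
    have hlt : ∀ x, lev a b x < m := fun x => by
      have := ((hab.2 (a x) (b x)).mp ⟨x, rfl, rfl⟩).2
      simpa [lev] using this
    obtain ⟨e, h₁, h₂⟩ := exists_equiv_tableau (staircase m) a (fun x => m - 1 - lev a b x)
      (fun x y hxy => hab.1 (by
        have hx := hlt x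
        have hy := hlt y
        simp only [Prod.mk.injEq, lev] at hxy hx hy ⊢
        omega))
      (fun i j => by
        rw [mem_diagram_staircase]
        constructor
        · rintro ⟨x, rfl, rfl⟩
          have := hlt x
          simp only [lev] at this ⊢
          omega
        · intro hij
          obtain ⟨x, h₁, h₂⟩ := (hab.2 i (m - 1 - i - j)).mpr ⟨by omega, by omega⟩
          exact ⟨x, h₁, by simp only [lev, h₁, h₂]; omega⟩)
    exact ⟨e, h₁, h₂, hlt⟩
  obtain ⟨e₁, he₁, he₁', hlt₁⟩ := key hab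
  obtain ⟨e₁b, he₁b, he₁b', hlt₂⟩ := key (isBand_swap hab)
  obtain ⟨e₂, he₂, he₂'⟩ := exists_equiv_tableau ν row col hshape.1 (fun i j => by
    rw [hshape.2, YoungDiagram.mem_iff_lt_rowLen]; simp)
  let G := Perm (Fin (m * (m + 1) / 2))
  let c₀ := youngSymmetrizer (staircase m)
  let S := specht (staircase m)
  let y₁ : S.toSubmodule := ⟨MonoidAlgebra.single (e₁.symm.trans e₂) 1 * c₀, ⟨_, rfl⟩⟩
  let y₂ : S.toSubmodule := ⟨MonoidAlgebra.single (e₁b.symm.trans e₂) 1 * c₀, ⟨_, rfl⟩⟩
  let T := S.toRepresentation.tprod S.toRepresentation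
  let Φ : MonoidAlgebra ℂ G →ₗ[ℂ] (S.toSubmodule ⊗[ℂ] S.toSubmodule) :=
    T.asAlgebraHom.toLinearMap.flip (y₁ ⊗ₜ[ℂ] y₂)
  have hΦg : ∀ (g : G) (x : MonoidAlgebra ℂ G), Φ (MonoidAlgebra.single g 1 * x) = T g (Φ x) := by
    intro g x
    simp [Φ, map_mul, Representation.asAlgebraHom_single]
  let f : Representation.IntertwiningMap (specht ν).toRepresentation T :=
    (Φ ∘ₗ (specht ν).toSubmodule.subtype).intertwiningMap_of_isIntertwiningMap _ _ fun g v => by
      show Φ (Representation.leftRegular ℂ G g v.1) = T g (Φ v.1)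
      rw [ofMulAction_eq_mul, hΦg]
  let ev : (S.toSubmodule ⊗[ℂ] S.toSubmodule) →ₗ[ℂ] ℂ :=
    (TensorProduct.lid ℂ ℂ).toLinearMap ∘ₗ TensorProduct.map
      (evalAgainst (testFn (staircase m) m e₂ φ₁) ∘ₗ S.toSubmodule.subtype)
      (evalAgainst (testFn (staircase m) m e₂ φ₂) ∘ₗ S.toSubmodule.subtype)
  have hcν : youngSymmetrizer ν ∈ (specht ν).toSubmodule := ⟨1, by simp⟩
  have hev : ev (Φ (youngSymmetrizer ν)) =
      ((gr (colOf (staircase m))).card : ℂ) ^ 2 *
        ((Perm.sign (e₁.symm.trans e₂) : ℤ) : ℂ) * ((Perm.sign (e₁b.symm.trans e₂) : ℤ) : ℂ) *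
        ((∑ p ∈ gr row, ∑ q ∈ gr col,
          sgnZ q * (factor a b φ₁ (q * p) * factor b a φ₂ (q * p)) : ℤ) : ℂ) := by
    have hΦs : ∀ (g : G) (s : ℂ), ev (Φ (MonoidAlgebra.single g s)) = s *
        (evalAgainst (testFn (staircase m) m e₂ φ₁) (MonoidAlgebra.single g 1 * y₁.1) *
          evalAgainst (testFn (staircase m) m e₂ φ₂) (MonoidAlgebra.single g 1 * y₂.1)) := by
      intro g s
      simp [Φ, ev, T, Representation.asAlgebraHom_single, Representation.tprod,
        TensorProduct.smul_tmul', Subrepresentation.toRepresentation, ofMulAction_eq_mul,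
        smul_eq_mul, mul_assoc]
    rw [youngSymmetrizer, sum_mul_sum]
    simp only [map_sum, MonoidAlgebra.single_mul_single, one_mul, hΦs, Int.cast_sum, mul_sum]
    refine sum_nbij' (fun p => (e₂.symm.permCongr p)⁻¹) (fun p => e₂.permCongr p⁻¹) ?_ ?_ ?_ ?_ ?_
    · intro r hr
      refine inv_mem_gr ((permCongr_mem_gr e₂ he₂ _).mpr ?_)
      rwa [permCongr_symm_permCongr]
    · intro p hp
      exact (permCongr_mem_gr e₂ he₂ _).mp (inv_mem_gr hp)
    · intro r _
      simp only [inv_inv, permCongr_symm_permCongr]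
    · intro p _
      simp only [symm_permCongr_permCongr, inv_inv]
    intro r hr
    refine sum_nbij' (fun c => (e₂.symm.permCongr c)⁻¹) (fun q => e₂.permCongr q⁻¹) ?_ ?_ ?_ ?_ ?_
    · intro c hc
      refine inv_mem_gr ((permCongr_mem_gr e₂ he₂' _).mpr ?_)
      rwa [permCongr_symm_permCongr]
    · intro p hp
      exact (permCongr_mem_gr e₂ he₂' _).mp (inv_mem_gr hp)
    · intro r _
      simp only [inv_inv, permCongr_symm_permCongr]
    · intro p _
      simp only [symm_permCongr_permCongr, inv_inv]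
    intro c _
    obtain ⟨g', hg'⟩ : ∃ g', g' = e₂.symm.permCongr (r * c) := ⟨_, rfl⟩
    have hrc : e₂.permCongr g' = r * c := by rw [hg', permCongr_symm_permCongr]
    have hinv : g'⁻¹ = (e₂.symm.permCongr c)⁻¹ * (e₂.symm.permCongr r)⁻¹ := by
      rw [hg', ← mul_inv_rev]
      congr 1
      ext x
      simp [Equiv.permCongr_apply]
    have hsq : ((sgnZ g' : ℤ) : ℂ) * ((sgnZ g' : ℤ) : ℂ) = 1 := by
      rw [← Int.cast_mul, sgnZ, ← Units.val_mul, Int.units_mul_self]
      simp
    have hsc : sgnZ (e₂.symm.permCongr c)⁻¹ = (Perm.sign c : ℤ) := by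
      rw [sgnZ, map_inv, Int.units_inv_eq_self, Perm.sign_permCongr]
    simp only [y₁, y₂, c₀, ← hrc]
    rw [evalAgainst_translate (staircase m) m a b hlt₁ e₁ e₂ he₁ he₁' φ₁ g',
      evalAgainst_translate (staircase m) m b a hlt₂ e₁b e₂ he₁b he₁b' φ₂ g', hinv, hsc]
    push_cast
    linear_combination ((Perm.sign c : ℤ) : ℂ) * ((gr (colOf (staircase m))).card : ℂ) ^ 2 *
      ((Perm.sign (e₁.symm.trans e₂) : ℤ) : ℂ) * ((Perm.sign (e₁b.symm.trans e₂) : ℤ) : ℂ) *
      ((factor a b φ₁ ((e₂.symm.permCongr c)⁻¹ * (e₂.symm.permCongr r)⁻¹) : ℤ) : ℂ) *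
      ((factor b a φ₂ ((e₂.symm.permCongr c)⁻¹ * (e₂.symm.permCongr r)⁻¹) : ℤ) : ℂ) * hsq
  have hne' : f ≠ 0 := by
    intro h0
    apply hφ
    have h1 : ev (Φ (youngSymmetrizer ν)) = 0 := by
      have := congrArg (fun F => ev (F ⟨_, hcν⟩)) h0
      simpa [f] using this
    rw [hev] at h1
    have hs : ∀ σ : G, ((Perm.sign σ : ℤ) : ℂ) ≠ 0 := fun σ => Int.cast_ne_zero.mpr (Units.ne_zero _)
    have hcard : ((gr (colOf (staircase m))).card : ℂ) ≠ 0 := by
      have : (1 : G) ∈ gr (colOf (staircase m)) := mem_gr.mpr fun _ => rfl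
      exact Nat.cast_ne_zero.mpr (card_pos.mpr ⟨1, this⟩).ne'
    simp only [mul_eq_zero, hs, hcard, pow_eq_zero_iff, ne_eq, OfNat.ofNat_ne_zero, not_false_eq_true,
      or_false, false_or] at h1
    exact_mod_cast h1
  have : Module.Finite ℂ (MonoidAlgebra ℂ G) :=
    Module.Finite.equiv (MonoidAlgebra.coeffLinearEquiv ℂ).symm
  let := Module.addCommMonoidToAddCommGroup ℂ
    (M := Representation.IntertwiningMap (specht ν).toRepresentation T)
  let := Module.addCommMonoidToAddCommGroup ℂ (M := S.toSubmodule ⊗[ℂ] S.toSubmodule)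
  let := Module.addCommMonoidToAddCommGroup ℂ (M := (specht ν).toSubmodule)
  have hS : Module.Finite ℂ S.toSubmodule := Module.Finite.of_injective _ S.toSubmodule.injective_subtype
  have hν : Module.Finite ℂ (specht ν).toSubmodule :=
    Module.Finite.of_injective _ (specht ν).toSubmodule.injective_subtype
  have : Module.Finite ℂ (Representation.IntertwiningMap (specht ν).toRepresentation T) :=
    Module.Finite.of_injective
      ({ toFun := fun F => F.toLinearMap, map_add' := fun _ _ => rfl, map_smul' := fun _ _ => rfl } :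
        Representation.IntertwiningMap (specht ν).toRepresentation T →ₗ[ℂ]
          ((specht ν).toSubmodule →ₗ[ℂ] (S.toSubmodule ⊗[ℂ] S.toSubmodule)))
      (Representation.IntertwiningMap.toLinearMap_injective _ _)
  exact Module.finrank_pos_iff_exists_ne_zero.mpr ⟨f, hne'⟩

end Vale.Agent.P197
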