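import Mathlib

namespace Vale.Agent.P197

open scoped TensorProduct

variable {n : ℕ}

/-- The row lengths of a partition, in decreasing order. -/
def rowLengths (μ : n.Partition) : List ℕ :=
  μ.parts.sort (· ≥ ·)

theorem rowLengths_sortedGE (μ : n.Partition) : (rowLengths μ).SortedGE :=
  (Multiset.pairwise_sort _ _).sortedGE

/-- The Young diagram of a partition. -/
def diagram (μ : n.Partition) : YoungDiagram :=
  YoungDiagram.ofRowLens (rowLengths μ) (rowLengths_sortedGE μ)

theorem card_cellsOfRowLens (w : List ℕ) : (YoungDiagram.cellsOfRowLens w).card = w.sum := by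
  induction w with
  | nil => simp [YoungDiagram.cellsOfRowLens]
  | cons a l ih =>
    rw [YoungDiagram.cellsOfRowLens, Finset.card_union_of_disjoint]
    · simp [ih]
    · rw [Finset.disjoint_left]
      intro c hc hc'
      simp at hc hc'
      obtain ⟨x, y, _, rfl⟩ := hc'
      simp at hc

theorem card_diagram (μ : n.Partition) : (diagram μ).cells.card = n := by
  show (YoungDiagram.cellsOfRowLens _).card = n
  rw [card_cellsOfRowLens, ← Multiset.sum_coe, rowLengths, Multiset.sort_eq, μ.parts_sum]

/-- A tableau of shape `μ`: a bijection from `Fin n` to the cells of the diagram. -/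
noncomputable def tableau (μ : n.Partition) : Fin n ≃ (diagram μ).cells :=
  ((diagram μ).cells.equivFinOfCardEq (card_diagram μ)).symm

/-- The row of an entry in the tableau. -/
noncomputable def rowOf (μ : n.Partition) (x : Fin n) : ℕ := (tableau μ x).1.1

/-- The column of an entry in the tableau. -/
noncomputable def colOf (μ : n.Partition) (x : Fin n) : ℕ := (tableau μ x).1.2

/-- The permutations preserving a function. -/
noncomputable def gr {P K : Type*} [Fintype P] (f : P → K) : Finset (Equiv.Perm P) :=
  letI := Classical.decEq P
  letI := Classical.decPred fun σ : Equiv.Perm P => ∀ x, f (σ x) = f x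
  Finset.univ.filter fun σ => ∀ x, f (σ x) = f x

/-- The Young symmetrizer: the sum over the row group times the signed sum over the column group. -/
noncomputable def youngSymmetrizer (μ : n.Partition) :
    MonoidAlgebra ℂ (Equiv.Perm (Fin n)) :=
  (∑ r ∈ gr (rowOf μ), MonoidAlgebra.single r (1 : ℂ)) *
    ∑ c ∈ gr (colOf μ), MonoidAlgebra.single c ((Equiv.Perm.sign c : ℤ) : ℂ)

theorem ofMulAction_eq_mul (g : Equiv.Perm (Fin n)) (x : MonoidAlgebra ℂ (Equiv.Perm (Fin n))) :
    Representation.leftRegular ℂ (Equiv.Perm (Fin n)) g x = MonoidAlgebra.single g 1 * x := by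
  induction x using MonoidAlgebra.induction_linear with
  | zero => simp
  | add x y hx hy => simp [map_add, mul_add, hx, hy]
  | single h r => simp [smul_eq_mul]

/-- The Specht module: the left ideal generated by the Young symmetrizer. -/
noncomputable def specht (μ : n.Partition) :
    Subrepresentation (Representation.leftRegular ℂ (Equiv.Perm (Fin n))) where
  toSubmodule := LinearMap.range (LinearMap.mulRight ℂ (youngSymmetrizer μ))
  apply_mem_toSubmodule g := by
    rintro v ⟨x, rfl⟩
    exact ⟨MonoidAlgebra.single g 1 * x, by simp [ofMulAction_eq_mul, mul_assoc]⟩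

/-- The Kronecker coefficient: the dimension of the equivariant maps from `S^ν` to `S^κ ⊗ S^μ`. -/
noncomputable def kronecker (κ μ ν : n.Partition) : ℕ :=
  Module.finrank ℂ (Representation.IntertwiningMap (specht ν).toRepresentation
    ((specht κ).toRepresentation.tprod (specht μ).toRepresentation))

/-- The staircase partition `(m, m-1, ..., 1)`. -/
def staircase (m : ℕ) : (m * (m + 1) / 2).Partition where
  parts := (Multiset.range m).map (· + 1)
  parts_pos := by
    intro i hi
    simp at hi
    omega
  parts_sum := by
    have h : ∀ k : ℕ, ((Multiset.range k).map (· + 1)).sum * 2 = k * (k + 1) := by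
      intro k
      induction k with
      | zero => simp
      | succ k ih => rw [Multiset.range_succ, Multiset.map_cons, Multiset.sum_cons]; linarith
    have := h m
    omega

end Vale.Agent.P197
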