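import Vale.Agent.P197.Shapes

/-! The inner block: every shape dominated by a staircase has a nonzero certificate. -/

namespace Vale.Agent.P197

set_option linter.unusedSectionVars false

open Equiv Finset

variable {P : Type*} [Fintype P] [DecidableEq P]

section Groups

variable {K : Type*} {f : P → K} {σ τ : Perm P}

theorem gr_one_mem : (1 : Perm P) ∈ gr f := mem_gr.mpr fun _ => rfl

theorem gr_mul_mem (hσ : σ ∈ gr f) (hτ : τ ∈ gr f) : σ * τ ∈ gr f :=
  mem_gr.mpr fun x => by simp [mem_gr.mp hσ, mem_gr.mp hτ]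

theorem gr_inv_mem (hσ : σ ∈ gr f) : σ⁻¹ ∈ gr f :=
  mem_gr.mpr fun x => by
    conv_rhs => rw [show x = σ (σ⁻¹ x) by simp]
    rw [mem_gr.mp hσ]

theorem gr_inv_mem_iff : σ⁻¹ ∈ gr f ↔ σ ∈ gr f :=
  ⟨fun h => by simpa using gr_inv_mem h, gr_inv_mem⟩

theorem gr_mul_mem_iff_left (hσ : σ ∈ gr f) : σ * τ ∈ gr f ↔ τ ∈ gr f :=
  ⟨fun h => by simpa [← mul_assoc] using gr_mul_mem (gr_inv_mem hσ) h, gr_mul_mem hσ⟩

theorem gr_mul_mem_iff_right (hτ : τ ∈ gr f) : σ * τ ∈ gr f ↔ σ ∈ gr f :=
  ⟨fun h => by simpa [mul_assoc] using gr_mul_mem h (gr_inv_mem hτ), fun h => gr_mul_mem h hτ⟩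

theorem sum_gr_mul_left {M : Type*} [AddCommMonoid M] (hσ : σ ∈ gr f) (Φ : Perm P → M) :
    ∑ c ∈ gr f, Φ (σ * c) = ∑ c ∈ gr f, Φ c :=
  Finset.sum_equiv (Equiv.mulLeft σ) (fun c => by simp [gr_mul_mem_iff_left hσ]) fun _ _ => rfl

theorem sum_gr_mul_right {M : Type*} [AddCommMonoid M] (hτ : τ ∈ gr f) (Φ : Perm P → M) :
    ∑ c ∈ gr f, Φ (c * τ) = ∑ c ∈ gr f, Φ c :=
  Finset.sum_equiv (Equiv.mulRight τ) (fun c => by simp [gr_mul_mem_iff_right hτ]) fun _ _ => rfl

theorem sum_gr_inv {M : Type*} [AddCommMonoid M] (Φ : Perm P → M) :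
    ∑ c ∈ gr f, Φ c⁻¹ = ∑ c ∈ gr f, Φ c :=
  Finset.sum_equiv (Equiv.inv (Perm P)) (fun c => by simp [gr_inv_mem_iff]) fun _ _ => rfl

theorem sum_gr_comp {M : Type*} [AddCommMonoid M] (σ : Perm P) (Φ : Perm P → M) :
    ∑ p ∈ gr (fun x => f (σ x)), Φ p = ∑ p ∈ gr f, Φ (σ⁻¹ * p * σ) :=
  (Finset.sum_equiv ((Equiv.mulLeft σ⁻¹).trans (Equiv.mulRight σ))
    (fun p => by
      simp only [mem_gr, Equiv.trans_apply, Equiv.coe_mulLeft, Equiv.coe_mulRight, Perm.mul_apply]
      refine ⟨fun h x => by simp [h], fun h x => ?_⟩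
      simpa using h (σ⁻¹ x))
    fun _ _ => rfl).symm

theorem sum_if_mem_mul (t : Perm P) (Φ : Perm P → ℤ) :
    ∑ g, (if g * t⁻¹ ∈ gr f then Φ g else 0) = ∑ r ∈ gr f, Φ (r * t) := by
  rw [← Equiv.sum_comp (Equiv.mulRight t)
    (fun g => if g * t⁻¹ ∈ gr f then Φ g else 0)]
  simp

theorem sgnZ_mul (σ τ : Perm P) : sgnZ (σ * τ) = sgnZ σ * sgnZ τ := by
  simp [sgnZ, Perm.sign_mul]

theorem sgnZ_inv (σ : Perm P) : sgnZ σ⁻¹ = sgnZ σ := by
  simp [sgnZ, Perm.sign_inv]

theorem sgnZ_one : sgnZ (1 : Perm P) = 1 := by simp [sgnZ]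

theorem sgnZ_mul_self (σ : Perm P) : sgnZ σ * sgnZ σ = 1 := by
  rcases Int.units_eq_one_or (Perm.sign σ) with h | h <;> simp [sgnZ, h]

theorem sgnZ_mul_cancel (σ : Perm P) (z : ℤ) : sgnZ σ * (sgnZ σ * z) = z := by
  rw [← mul_assoc, sgnZ_mul_self, one_mul]

end Groups

/-- The coefficient of the staircase Young symmetrizer at `g`. -/
noncomputable def symCoeff (a b : P → ℕ) (g : Perm P) : ℤ :=
  ∑ c ∈ gr b, if g * c⁻¹ ∈ gr a then sgnZ c else 0

section Coeff

variable {a b : P → ℕ}

theorem sum_symCoeff_mul (Φ : Perm P → ℤ) :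
    ∑ g, symCoeff a b g * Φ g = ∑ c ∈ gr b, sgnZ c * ∑ r ∈ gr a, Φ (r * c) := by
  simp only [symCoeff, Finset.sum_mul, ite_mul, zero_mul]
  rw [Finset.sum_comm]
  refine Finset.sum_congr rfl fun c _ => ?_
  rw [sum_if_mem_mul c (fun g => sgnZ c * Φ g), Finset.mul_sum]

theorem symCoeff_mul_right {c : Perm P} (hc : c ∈ gr b) (g : Perm P) :
    symCoeff a b (g * c) = sgnZ c * symCoeff a b g := by
  rw [symCoeff, symCoeff, ← sum_gr_mul_right hc, Finset.mul_sum]
  refine Finset.sum_congr rfl fun d _ => ?_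
  rw [show g * c * (d * c)⁻¹ = g * d⁻¹ by group, sgnZ_mul]
  split_ifs <;> ring

theorem symCoeff_inv (g : Perm P) :
    symCoeff a b g⁻¹ = sgnZ g * ∑ r ∈ gr a, if g * r ∈ gr b then sgnZ r else 0 := by
  have hl : symCoeff a b g⁻¹ =
      ∑ c ∈ gr b, ∑ r ∈ gr a, if g * r = c⁻¹ then sgnZ c else 0 := by
    refine Finset.sum_congr rfl fun c _ => ?_
    rw [← Finset.sum_ite_eq' (gr a) (g⁻¹ * c⁻¹) (fun _ => sgnZ c)]
    refine Finset.sum_congr rfl fun r _ => if_congr ?_ rfl rfl
    constructor <;> intro h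
    · rw [h]; group
    · rw [← h]; group
  rw [hl, Finset.sum_comm, Finset.mul_sum]
  refine Finset.sum_congr rfl fun r _ => ?_
  rw [← sum_gr_inv (f := b) (fun c => if g * r = c⁻¹ then sgnZ c else 0)]
  simp only [inv_inv, sgnZ_inv]
  rw [Finset.sum_ite_eq]
  split_ifs <;> simp [sgnZ_mul]

end Coeff

section Stair

variable {a b : P → ℕ} {n : ℕ}

theorem IsStair.lt (hab : IsStair n a b) (x : P) : a x + b x < n := by
  have := ((hab.2 (a x) (b x)).mp ⟨x, rfl, rfl⟩).2
  omega

theorem IsStair.ext (hab : IsStair n a b) {x y : P} (h₁ : a x = a y) (h₂ : b x = b y) : x = y :=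
  hab.1 (by simp [h₁, h₂])

theorem IsStair.exists_perm (hab : IsStair n a b) {f g : P → ℕ}
    (hlt : ∀ x, f x + g x < n) (hinj : Function.Injective fun x => (f x, g x)) :
    ∃ σ : Perm P, ∀ x, a (σ x) = f x ∧ b (σ x) = g x := by
  have hex : ∀ x, ∃ y, a y = f x ∧ b y = g x := fun x =>
    (hab.2 _ _).mpr ⟨Nat.zero_le _, by have := hlt x; omega⟩
  choose e he using hex
  have hi : Function.Injective e := fun x y h => hinj <| by
    simp only [← (he x).1, ← (he x).2, h, (he y).1, (he y).2]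
  exact ⟨Equiv.ofBijective e ⟨hi, Finite.injective_iff_surjective.mp hi⟩, he⟩

theorem IsStair.eq_one (hab : IsStair n a b) {σ : Perm P} (h₁ : σ ∈ gr a) (h₂ : σ ∈ gr b) :
    σ = 1 :=
  Equiv.ext fun x => hab.ext (mem_gr.mp h₁ x) (mem_gr.mp h₂ x)

theorem IsStair.exists_transpose (hab : IsStair n a b) :
    ∃ τ : Perm P, ∀ x, a (τ x) = b x ∧ b (τ x) = a x :=
  hab.exists_perm (fun x => by have := hab.lt x; omega) fun x y h => by
    simp only [Prod.mk.injEq] at h
    exact hab.ext h.2 h.1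

theorem IsStair.exists_rowFlip (hab : IsStair n a b) :
    ∃ F : Perm P, ∀ x, a (F x) = a x ∧ b (F x) + a x + b x + 1 = n := by
  obtain ⟨F, hF⟩ := hab.exists_perm (f := a) (g := fun x => n - 1 - a x - b x)
    (fun x => by have := hab.lt x; omega) fun x y h => by
      simp only [Prod.mk.injEq] at h
      have := hab.lt x
      have := hab.lt y
      exact hab.ext h.1 (by omega)
  exact ⟨F, fun x => ⟨(hF x).1, by have := hab.lt x; have := (hF x).2; omega⟩⟩

theorem IsStair.exists_colFlip (hab : IsStair n a b) :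
    ∃ G : Perm P, ∀ x, b (G x) = b x ∧ a (G x) + a x + b x + 1 = n := by
  obtain ⟨G, hG⟩ := hab.exists_perm (f := fun x => n - 1 - a x - b x) (g := b)
    (fun x => by have := hab.lt x; omega) fun x y h => by
      simp only [Prod.mk.injEq] at h
      have := hab.lt x
      have := hab.lt y
      exact hab.ext (by omega) h.2
  exact ⟨G, fun x => ⟨(hG x).2, by have := hab.lt x; have := (hG x).1; omega⟩⟩

/-- A row reversal leaves the product of the row and column groups after any nontrivial column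
permutation. -/
theorem IsStair.eq_one_of_symCoeff_ne_zero (hab : IsStair n a b) {F c : Perm P}
    (hF : ∀ x, a (F x) = a x ∧ b (F x) + a x + b x + 1 = n) (hc : c ∈ gr b)
    (h : symCoeff a b (c * F) ≠ 0) : c = 1 := by
  obtain ⟨d, hd, hne⟩ := Finset.exists_ne_zero_of_sum_ne_zero h
  have hmem : c * F * d⁻¹ ∈ gr a := by
    by_contra hno
    rw [if_neg hno] at hne
    exact hne rfl
  have hFF : ∀ x, F (F x) = x := fun x => hab.ext (by rw [(hF _).1, (hF x).1]) (by
    have := (hF x).2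
    have := (hF (F x)).2
    have := (hF x).1
    omega)
  have key : ∀ e k : Perm P, k ∈ gr b → (∀ x, a (k (F x)) = a (e x)) →
      ∑ x, (a (e x) : ℤ) * (a x + b x) = ∑ x, (a x : ℤ) * ((n : ℤ) - 1 - b x) := by
    intro e k hk hke
    rw [← Equiv.sum_comp k (fun x => (a x : ℤ) * ((n : ℤ) - 1 - b x)),
      ← Equiv.sum_comp F (fun x => (a (k x) : ℤ) * ((n : ℤ) - 1 - b (k x)))]
    refine Finset.sum_congr rfl fun x _ => ?_
    rw [hke x, mem_gr.mp hk]
    congr 1
    have := (hF x).2
    omega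
  -- the permutation `d` arranges the values `a ∘ c` along antidiagonals
  have h₁ := key c d hd fun x => by
    have h' := mem_gr.mp hmem (d (F x))
    simp only [Perm.mul_apply, Perm.coe_inv, Equiv.symm_apply_apply, hFF] at h'
    exact h'.symm
  have h₂ := key 1 1 gr_one_mem fun x => (hF x).1
  have h₃ : ∑ x, (a (c x) : ℤ) * b x = ∑ x, (a x : ℤ) * b x := by
    rw [← Equiv.sum_comp c (fun x => (a x : ℤ) * b x)]
    exact Finset.sum_congr rfl fun x _ => by rw [mem_gr.mp hc]
  have h₄ : ∑ x, (a (c x) : ℤ) ^ 2 = ∑ x, (a x : ℤ) ^ 2 :=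
    Equiv.sum_comp c (fun x => (a x : ℤ) ^ 2)
  simp only [mul_add, Finset.sum_add_distrib, Perm.one_apply] at h₁ h₂
  have h₅ : ∑ x, ((a (c x) : ℤ) - a x) ^ 2 = 0 := by
    have e : ∀ x, ((a (c x) : ℤ) - a x) ^ 2 =
        (a (c x) : ℤ) ^ 2 + (a x : ℤ) ^ 2 - 2 * ((a (c x) : ℤ) * a x) := fun x => by ring
    simp only [e, Finset.sum_sub_distrib, Finset.sum_add_distrib, ← Finset.mul_sum, h₄]
    simp only [sq]
    linarith
  refine hab.eq_one (mem_gr.mpr fun x => ?_) hc
  have h₆ := (Finset.sum_eq_zero_iff_of_nonneg fun y _ => sq_nonneg _).mp h₅ x (Finset.mem_univ x)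
  exact_mod_cast sub_eq_zero.mp (pow_eq_zero_iff two_ne_zero |>.mp h₆)

/-- The product of the two signed row-transversal indicators at the reflected cells `k`. -/
theorem wt_transpose {τ F G : Perm P}
    (hτ : ∀ x, a (τ x) = b x ∧ b (τ x) = a x)
    (hF : ∀ x, a (F x) = a x ∧ b (F x) + a x + b x + 1 = n)
    (hG : ∀ x, b (G x) = b x ∧ a (G x) + a x + b x + 1 = n) (g : Perm P) :
    (∑ r ∈ gr a, ∑ c ∈ gr b,
      if (∀ y, lev a b (r y) + a (τ (g y)) + 1 = n) ∧
          (∀ y, lev a b (c y) + b (τ (g y)) + 1 = n) then sgnZ r * sgnZ c else 0) =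
      sgnZ F * sgnZ G * (sgnZ g * (symCoeff a b g * symCoeff a b g⁻¹)) := by
  have hFa : F ∈ gr a := mem_gr.mpr fun x => (hF x).1
  have hGb : G ∈ gr b := mem_gr.mpr fun x => (hG x).1
  have hA : ∀ r ∈ gr a, ((∀ y, lev a b (r y) + a (τ (g y)) + 1 = n) ↔
      g * (F * r)⁻¹ ∈ gr b) := by
    intro r _
    rw [mem_gr]
    constructor
    · intro h z
      obtain ⟨y, rfl⟩ := (F * r).surjective z
      have h' := h y
      have e : b (g y) = a (τ (g y)) := ((hτ (g y)).1).symm
      have hf := (hF (r y)).2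
      simp only [lev, Perm.mul_apply, mul_inv_rev, Perm.coe_inv, Equiv.symm_apply_apply] at h' ⊢
      omega
    · intro h y
      have h' := h ((F * r) y)
      have hf := (hF (r y)).2
      simp only [Perm.mul_apply, mul_inv_rev, Perm.coe_inv, Equiv.symm_apply_apply] at h'
      simp only [lev, (hτ (g y)).1]
      omega
  have hB : ∀ c ∈ gr b, ((∀ y, lev a b (c y) + b (τ (g y)) + 1 = n) ↔
      g * (G * c)⁻¹ ∈ gr a) := by
    intro c _
    rw [mem_gr]
    constructor
    · intro h z
      obtain ⟨y, rfl⟩ := (G * c).surjective z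
      have h' := h y
      have e : a (g y) = b (τ (g y)) := ((hτ (g y)).2).symm
      have hf := (hG (c y)).2
      simp only [lev, Perm.mul_apply, mul_inv_rev, Perm.coe_inv, Equiv.symm_apply_apply] at h' ⊢
      omega
    · intro h y
      have h' := h ((G * c) y)
      have hf := (hG (c y)).2
      simp only [Perm.mul_apply, mul_inv_rev, Perm.coe_inv, Equiv.symm_apply_apply] at h'
      simp only [lev, (hτ (g y)).2]
      omega
  have h₁ : symCoeff a b g =
      sgnZ G * ∑ c ∈ gr b, if g * (G * c)⁻¹ ∈ gr a then sgnZ c else 0 := by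
    rw [symCoeff, ← sum_gr_mul_left hGb, Finset.mul_sum]
    exact Finset.sum_congr rfl fun c _ => by split_ifs <;> simp [sgnZ_mul]
  have h₂ : (∑ r ∈ gr a, if g * r ∈ gr b then sgnZ r else 0) =
      sgnZ F * ∑ r ∈ gr a, if g * (F * r)⁻¹ ∈ gr b then sgnZ r else 0 := by
    rw [← sum_gr_inv, ← sum_gr_mul_left hFa, Finset.mul_sum]
    exact Finset.sum_congr rfl fun r _ => by split_ifs <;> simp [sgnZ_mul, sgnZ_inv, mul_comm]
  calc _ = (∑ r ∈ gr a, if g * (F * r)⁻¹ ∈ gr b then sgnZ r else 0) *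
        ∑ c ∈ gr b, if g * (G * c)⁻¹ ∈ gr a then sgnZ c else 0 := by
        rw [Finset.sum_mul_sum]
        refine Finset.sum_congr rfl fun r hr => Finset.sum_congr rfl fun c hc => ?_
        rw [if_congr (and_congr (hA r hr) (hB c hc)) rfl rfl, ite_and]
        split_ifs <;> simp
    _ = _ := by
        rw [symCoeff_inv, h₂, h₁]
        set X := ∑ r ∈ gr a, if g * (F * r)⁻¹ ∈ gr b then sgnZ r else 0
        set Y := ∑ c ∈ gr b, if g * (G * c)⁻¹ ∈ gr a then sgnZ c else 0
        have := sgnZ_mul_self g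
        have := sgnZ_mul_self F
        have := sgnZ_mul_self G
        linear_combination (-(X * Y) * (sgnZ F * sgnZ F) * (sgnZ G * sgnZ G)) * sgnZ_mul_self g
          - (X * Y * sgnZ G * sgnZ G) * sgnZ_mul_self F - (X * Y) * sgnZ_mul_self G

end Stair

/-- A standard-like filling: `a` weakly decreases along the rows of `K`, strictly down columns. -/
theorem exists_filling : ∀ (n : ℕ) {P : Type*} [Fintype P] [DecidableEq P] (a b : P → ℕ),
    IsStair n a b → ∀ {K : ℕ → ℕ}, IsPart K (tri n) → (∀ k, rhoSum n k ≤ psum K k) →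
    ∃ u v : P → ℕ, IsShape K u v ∧
      (∀ x y, u x = u y → v x ≤ v y → a y ≤ a x) ∧
      ∀ x y, v x = v y → u x < u y → a y < a x := by
  intro n
  induction n with
  | zero =>
    intro P _ _ a b hab K hK _
    have he : IsEmpty P := ⟨fun x => by have := hab.lt x; omega⟩
    refine ⟨fun _ => 0, fun _ => 0, ⟨fun x => he.elim x, fun i j => ?_⟩,
      fun x => he.elim x, fun x => he.elim x⟩
    obtain ⟨M, hz, hs⟩ := hK.eventually_zero
    have h0 : K i = 0 := by
      by_cases hi : M ≤ i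
      · exact hz i hi
      · have := Finset.single_le_sum (f := K) (fun _ _ => Nat.zero_le _)
          (Finset.mem_range.mpr (not_le.mp hi))
        have h := hs M le_rfl
        simp only [psum, tri, rhoSum, Finset.range_zero, Finset.sum_empty] at h
        omega
    exact ⟨fun ⟨x, _⟩ => he.elim x, fun h => by omega⟩
  | succ n ih =>
    intro P _ _ a b hab K hK hd
    obtain ⟨h0, hd'⟩ := strip_dominates hK hd
    have hp1 : psum K 1 = K 0 := by simp [psum]
    obtain ⟨hK', -, hK'le⟩ := stripShape_spec hK Nat.one_pos (hp1.ge.trans' h0)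
    set K' := stripShape K 1 (n + 1) with hK'def
    rw [tri_succ, Nat.add_sub_cancel] at hK'
    have hab' : IsStair n (fun x : {x // ¬ a x = 0} => a x.1 - 1) (fun x => b x.1) := by
      refine ⟨fun x y h => ?_, fun i j => ⟨?_, ?_⟩⟩
      · simp only [Prod.mk.injEq] at h
        have := x.2
        have := y.2
        exact Subtype.ext (hab.ext (by omega) h.2)
      · rintro ⟨x, rfl, rfl⟩
        have := hab.lt x.1
        have := x.2
        simp only
        omega
      · rintro ⟨-, h⟩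
        obtain ⟨x, hx, rfl⟩ := (hab.2 (i + 1) j).mpr ⟨Nat.zero_le _, by omega⟩
        exact ⟨⟨x, by omega⟩, by simp [hx], rfl⟩
    obtain ⟨u', v', hs', hweak', hstrict'⟩ := ih _ _ hab' hK' hd'
    have hcard : Fintype.card {x // a x = 0} = n + 1 := by
      rw [← Fintype.card_fin (n + 1)]
      refine Fintype.card_congr (Equiv.ofBijective
        (fun x => (⟨b x.1, by have := hab.lt x.1; omega⟩ : Fin (n + 1))) ⟨?_, ?_⟩)
      · intro x y h
        exact Subtype.ext (hab.ext (by rw [x.2, y.2]) (congrArg Fin.val h))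
      · intro j
        obtain ⟨x, hx, hj⟩ := (hab.2 0 j.1).mpr ⟨Nat.zero_le _, by omega⟩
        exact ⟨⟨x, hx⟩, Fin.ext hj⟩
    obtain ⟨s, t, hst⟩ := exists_isSkew (P := {x // a x = 0}) hK hK' (fun i => (hK'le i).1)
      (by rw [hcard, tri_succ])
    let u := fun x => if h : a x = 0 then s ⟨x, h⟩ else u' ⟨x, h⟩
    let v := fun x => if h : a x = 0 then t ⟨x, h⟩ else v' ⟨x, h⟩
    have hzero : ∀ x, a x = 0 → K' (u x) ≤ v x ∧ v x < K (u x) := fun x h => by
      simp only [u, v, dif_pos h]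
      exact (hst.2 _ _).mp ⟨_, rfl, rfl⟩
    have hpos : ∀ x, ¬ a x = 0 → v x < K' (u x) := fun x h => by
      simp only [u, v, dif_neg h]
      exact ((hs'.2 _ _).mp ⟨_, rfl, rfl⟩).2
    refine ⟨u, v, ⟨fun x y h => ?_, fun i j => ⟨?_, ?_⟩⟩, fun x y huv hle => ?_,
      fun x y hvv hlt => ?_⟩
    · simp only [Prod.mk.injEq] at h
      by_cases hx : a x = 0 <;> by_cases hy : a y = 0
      · simp only [u, v, dif_pos hx, dif_pos hy] at h
        exact congrArg Subtype.val (hst.1 (by simp [h]) : (⟨x, hx⟩ : {x // a x = 0}) = ⟨y, hy⟩)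
      · have := hzero x hx; have := hpos y hy
        rw [h.1, h.2] at *; omega
      · have := hzero y hy; have := hpos x hx
        rw [h.1, h.2] at *; omega
      · simp only [u, v, dif_neg hx, dif_neg hy] at h
        exact congrArg Subtype.val (hs'.1 (by simp [h]) : (⟨x, hx⟩ : {x // ¬ a x = 0}) = ⟨y, hy⟩)
    · rintro ⟨x, rfl, rfl⟩
      refine ⟨Nat.zero_le _, ?_⟩
      by_cases hx : a x = 0
      · exact (hzero x hx).2
      · exact (hpos x hx).trans_le (hK'le _).1
    · rintro ⟨-, hj⟩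
      by_cases hj' : j < K' i
      · obtain ⟨⟨x, hx⟩, rfl, rfl⟩ := (hs'.2 i j).mpr ⟨Nat.zero_le _, hj'⟩
        exact ⟨x, by simp [u, hx], by simp [v, hx]⟩
      · obtain ⟨⟨x, hx⟩, rfl, rfl⟩ := (hst.2 i j).mpr ⟨not_lt.mp hj', hj⟩
        exact ⟨x, by simp [u, hx], by simp [v, hx]⟩
    · by_cases hx : a x = 0
      · by_cases hy : a y = 0
        · omega
        · have := hzero x hx; have := hpos y hy
          rw [huv] at *; omega
      · by_cases hy : a y = 0
        · omega
        · simp only [u, v, dif_neg hx, dif_neg hy] at huv hle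
          have := hweak' ⟨x, hx⟩ ⟨y, hy⟩ huv hle
          simp only at this
          omega
    · by_cases hx : a x = 0
      · exfalso
        have hcx := hzero x hx
        have hanti : K' (u y) ≤ K' (u x) := hK'.1 hlt.le
        by_cases hy : a y = 0
        · have hcy := hzero y hy
          have := (hK'le (u x)).2
          have := hK.1 (show u x + 1 ≤ u y by omega)
          omega
        · have := hpos y hy
          omega
      · by_cases hy : a y = 0
        · omega
        · simp only [u, v, dif_neg hx, dif_neg hy] at hvv hlt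
          have := hstrict' ⟨x, hx⟩ ⟨y, hy⟩ hvv hlt
          simp only at this
          omega

/-- A filling increasing in the two directions admits no nontrivial rearrangement. -/
theorem eq_one_of_rearrange (a row col : P → ℕ)
    (hinj : Function.Injective fun x => (row x, col x))
    (hweak : ∀ x y, col x = col y → row x ≤ row y → a y ≤ a x)
    (hstrict : ∀ x y, row x = row y → col x < col y → a y < a x)
    {p q : Perm P} (hp : p ∈ gr row) (hq : q ∈ gr col) (h : ∀ x, a (q (p x)) = a x) : p = 1 := by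
  have key : ∀ k x, k < a (q x) ↔ k < a x := by
    intro k
    let θ : ℕ → ℕ := fun j =>
      (Finset.univ.filter fun y => k < a y ∧ col y = j).sup fun y => row y + 1
    let w : P → ℤ := fun x => 2 * row x - 2 * θ (col x) + 1
    have hin : ∀ x, k < a x → w x ≤ -1 := fun x hx => by
      have : row x + 1 ≤ θ (col x) :=
        Finset.le_sup (f := fun y => row y + 1) (by simp [hx] : x ∈
          Finset.univ.filter fun y => k < a y ∧ col y = col x)
      simp only [w]
      omega
    have hout : ∀ x, ¬ k < a x → 1 ≤ w x := fun x hx => by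
      have : θ (col x) ≤ row x := Finset.sup_le fun y hy => by
        simp only [Finset.mem_filter, Finset.mem_univ, true_and] at hy
        by_contra hlt
        exact hx (hy.1.trans_le (hweak x y hy.2.symm (by omega)))
      simp only [w]
      omega
    have s₁ : ∑ x, (if k < a (q x) then (row x : ℤ) else 0) =
        ∑ x, if k < a x then (row x : ℤ) else 0 := by
      rw [← Equiv.sum_comp p (fun x => if k < a (q x) then (row x : ℤ) else 0)]
      simp only [h, mem_gr.mp hp]
    have s₂ : ∑ x, (if k < a (q x) then (θ (col x) : ℤ) else 0) =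
        ∑ x, if k < a x then (θ (col x) : ℤ) else 0 := by
      rw [← Equiv.sum_comp q (fun x => if k < a x then (θ (col x) : ℤ) else 0)]
      simp only [mem_gr.mp hq]
    have s₃ : ∑ x, (if k < a (q x) then (1 : ℤ) else 0) =
        ∑ x, if k < a x then (1 : ℤ) else 0 :=
      Equiv.sum_comp q (fun x => if k < a x then (1 : ℤ) else 0)
    have s₄ : ∑ x, ((if k < a (q x) then w x else 0) - if k < a x then w x else 0) = 0 := by
      have e : ∀ (P' : Prop) [Decidable P'] (x : P), (if P' then w x else 0) =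
          2 * (if P' then (row x : ℤ) else 0) - 2 * (if P' then (θ (col x) : ℤ) else 0) +
            if P' then (1 : ℤ) else 0 := fun P' _ x => by
        simp only [w]; split_ifs <;> ring
      simp only [e, Finset.sum_sub_distrib, Finset.sum_add_distrib, ← Finset.mul_sum, s₁, s₂, s₃]
      ring
    intro x
    have := (Finset.sum_eq_zero_iff_of_nonneg fun y _ => ?_).mp s₄ x (Finset.mem_univ x)
    · by_cases h₁ : k < a (q x) <;> by_cases h₂ : k < a x <;> simp only [h₁, h₂]
      · rw [if_pos h₁, if_neg h₂] at this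
        have := hout x h₂; omega
      · rw [if_neg h₁, if_pos h₂] at this
        have := hin x h₂; omega
    · split_ifs with h₁ h₂ h₂
      · simp
      · have := hout y h₂; omega
      · have := hin y h₂; omega
      · simp
  have haq : ∀ x, a (q x) = a x := fun x =>
    le_antisymm (not_lt.mp fun hh => lt_irrefl _ ((key _ x).mp hh))
      (not_lt.mp fun hh => lt_irrefl _ ((key _ x).mpr hh))
  refine Equiv.ext fun x => hinj (Prod.ext (mem_gr.mp hp x) ?_)
  have hap : a (p x) = a x := (haq (p x)).symm.trans (h x)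
  rcases lt_trichotomy (col (p x)) (col x) with hh | hh | hh
  · have := hstrict _ _ (mem_gr.mp hp x) hh; omega
  · exact hh
  · have := hstrict _ _ (mem_gr.mp hp x).symm hh; omega

/-- If all pairings with the squared symmetrizer coefficient vanish, the row-invariant vector
built from the filling vanishes. -/
theorem rowVector_eq_zero {a b row col : P → ℕ} {n : ℕ} (hab : IsStair n a b)
    (hzero : ∀ x σ : Perm P, ∑ p ∈ gr row, ∑ q ∈ gr col,
      sgnZ p * (symCoeff a b (x * p * q * σ) * symCoeff a b (x * p * q * σ)⁻¹) = 0)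
    (g : Perm P) :
    (∑ p ∈ gr row, ∑ q ∈ gr col, if g * (q * p)⁻¹ ∈ gr a then sgnZ p else 0) = 0 := by
  set u : Perm P → ℤ :=
    fun g => ∑ p ∈ gr row, ∑ q ∈ gr col, if g * (q * p)⁻¹ ∈ gr a then sgnZ p else 0 with hu
  show u g = 0
  have hleft : ∀ r ∈ gr a, ∀ g, u (r * g) = u g := fun r hr g => by
    refine Finset.sum_congr rfl fun p _ => Finset.sum_congr rfl fun q _ => ?_
    exact if_congr (by rw [mul_assoc, gr_mul_mem_iff_left hr]) rfl rfl
  have hexp : ∀ Φ : Perm P → ℤ, ∑ g, u g * Φ g =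
      ∑ r ∈ gr a, ∑ p ∈ gr row, ∑ q ∈ gr col, sgnZ p * Φ (r * (q * p)) := fun Φ => by
    simp only [hu, Finset.sum_mul, ite_mul, zero_mul]
    rw [Finset.sum_comm]
    conv_rhs => rw [Finset.sum_comm]
    refine Finset.sum_congr rfl fun p _ => ?_
    rw [Finset.sum_comm]
    conv_rhs => rw [Finset.sum_comm]
    exact Finset.sum_congr rfl fun q _ => sum_if_mem_mul (q * p) fun g => sgnZ p * Φ g
  set u₀ : Perm P → ℤ := fun y => symCoeff a b y * symCoeff a b y⁻¹ with hu₀
  have hkill : ∀ x, ∑ g, u g * u₀ (x * g⁻¹) = 0 := fun x => by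
    rw [hexp]
    refine Finset.sum_eq_zero fun r _ => ?_
    rw [← hzero x r⁻¹, ← sum_gr_inv]
    refine Finset.sum_congr rfl fun p _ => ?_
    rw [← sum_gr_inv]
    refine Finset.sum_congr rfl fun q _ => ?_
    simp only [hu₀, sgnZ_inv, mul_inv_rev, inv_inv, mul_assoc]
  set W : Perm P → ℤ := fun y => ∑ g, u (y * g) * u g with hW
  have h0 : ∑ y, u₀ y * W y = 0 := by
    have h1 : ∑ x, u x * ∑ g, u g * u₀ (x * g⁻¹) = 0 := by simp [hkill]
    rw [← h1]
    simp only [hW, Finset.mul_sum]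
    rw [Finset.sum_comm]
    conv_rhs => rw [Finset.sum_comm]
    refine Finset.sum_congr rfl fun g _ => ?_
    conv_rhs => rw [← Equiv.sum_comp (Equiv.mulRight g)]
    refine Finset.sum_congr rfl fun y _ => ?_
    simp only [Equiv.coe_mulRight, mul_inv_cancel_right]
    ring
  set B : Perm P → ℤ := fun y => ∑ h, symCoeff a b h * symCoeff a b (y * h) with hB
  have hBinv : ∀ y, B y⁻¹ = B y := fun y => by
    simp only [hB]
    rw [← Equiv.sum_comp (Equiv.mulLeft y)]
    simp only [Equiv.coe_mulLeft, inv_mul_cancel_left]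
    exact Finset.sum_congr rfl fun h _ => mul_comm _ _
  have hWr : ∀ r ∈ gr a, ∀ y, W (r * y) = W y := fun r hr y => by
    simp only [hW, mul_assoc, hleft r hr]
  have hBA : ∀ y, B y = (gr b).card * ∑ r ∈ gr a, symCoeff a b (y * r) := fun y => by
    simp only [hB]
    rw [sum_symCoeff_mul (fun h => symCoeff a b (y * h))]
    rw [Finset.card_eq_sum_ones, Nat.cast_sum, Finset.sum_mul]
    refine Finset.sum_congr rfl fun c hc => ?_
    rw [Nat.cast_one, one_mul, Finset.mul_sum]
    refine Finset.sum_congr rfl fun r _ => ?_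
    rw [← mul_assoc y, symCoeff_mul_right hc, sgnZ_mul_cancel]
  have hsum : ∑ c ∈ gr b, sgnZ c * W c * B c = 0 := by
    have h1 : ∑ c ∈ gr b, sgnZ c * ∑ r ∈ gr a, symCoeff a b (r * c)⁻¹ * W (r * c) = 0 := by
      rw [← sum_symCoeff_mul (a := a) (b := b) fun y => symCoeff a b y⁻¹ * W y, ← h0]
      exact Finset.sum_congr rfl fun y _ => by simp only [hu₀]; ring
    have e : ∀ c ∈ gr b, sgnZ c * W c * B c = (gr b).card *
        (sgnZ c * ∑ r ∈ gr a, symCoeff a b (r * c)⁻¹ * W (r * c)) := fun c _ => by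
      rw [← hBinv c, hBA, ← sum_gr_inv (f := a) (fun r => symCoeff a b (c⁻¹ * r))]
      simp only [Finset.mul_sum]
      refine Finset.sum_congr rfl fun r hr => ?_
      rw [hWr r hr, mul_inv_rev]
      ring
    rw [Finset.sum_congr rfl e, ← Finset.mul_sum, h1, mul_zero]
  have hsq : ∑ g, ∑ h, (∑ c ∈ gr b, sgnZ c * u (c * g) * symCoeff a b (c * h)) ^ 2 = 0 := by
    have e : ∀ g h, (∑ c ∈ gr b, sgnZ c * u (c * g) * symCoeff a b (c * h)) ^ 2 =
        ∑ d ∈ gr b, ∑ c ∈ gr b, sgnZ c * (u (c * d * g) * u (d * g)) *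
          (symCoeff a b (d * h) * symCoeff a b (c * d * h)) := fun g h => by
      rw [sq, Finset.sum_mul]
      refine Finset.sum_congr rfl fun d hd => ?_
      rw [Finset.mul_sum]
      conv_lhs => rw [← sum_gr_mul_right hd]
      refine Finset.sum_congr rfl fun c _ => ?_
      rw [sgnZ_mul]
      linear_combination (sgnZ c * u (c * d * g) * u (d * g) * symCoeff a b (d * h) *
        symCoeff a b (c * d * h)) * sgnZ_mul_self d
    simp only [e]
    rw [Finset.sum_comm_cycle]
    rw [Finset.sum_congr rfl fun d _ => Finset.sum_comm_cycle]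
    have e2 : ∀ d c : Perm P, ∑ g, ∑ h, sgnZ c * (u (c * d * g) * u (d * g)) *
        (symCoeff a b (d * h) * symCoeff a b (c * d * h)) = sgnZ c * W c * B c := fun d c => by
      calc _ = ∑ g, ∑ h, sgnZ c * (u (c * g) * u g) *
              (symCoeff a b h * symCoeff a b (c * h)) := Fintype.sum_equiv (Equiv.mulLeft d) _ _
            fun g => Fintype.sum_equiv (Equiv.mulLeft d) _ _ fun h => by
              simp only [Equiv.coe_mulLeft, mul_assoc]
        _ = _ := by simp only [hW, hB, Finset.mul_sum, Finset.sum_mul]; rw [Finset.sum_comm]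
    simp only [e2, hsum, Finset.sum_const_zero]
  obtain ⟨F, hF⟩ := hab.exists_rowFlip
  have h1 := (Finset.sum_eq_zero_iff_of_nonneg
    fun g _ => Finset.sum_nonneg fun h _ => sq_nonneg _).mp hsq g (Finset.mem_univ _)
  have h2 := (Finset.sum_eq_zero_iff_of_nonneg fun h _ => sq_nonneg _).mp h1 F (Finset.mem_univ _)
  rw [pow_eq_zero_iff two_ne_zero, Finset.sum_eq_single (1 : Perm P)] at h2
  · have hE : symCoeff a b F = 1 := by
      rw [symCoeff, Finset.sum_eq_single (1 : Perm P)]
      · rw [inv_one, mul_one, if_pos (mem_gr.mpr fun x => (hF x).1), sgnZ_one]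
      · intro c hc hne
        rw [if_neg]
        intro hmem
        exact hne (hab.eq_one (gr_inv_mem_iff.mp
          ((gr_mul_mem_iff_left (mem_gr.mpr fun x => (hF x).1)).mp hmem)) hc)
      · exact fun hno => absurd gr_one_mem hno
    simpa [sgnZ_one, hE] using h2
  · intro c hc hne
    have : symCoeff a b (c * F) = 0 := by_contra fun hno =>
      hne (hab.eq_one_of_symCoeff_ne_zero hF hc hno)
    simp [this]
  · exact fun hno => absurd gr_one_mem hno

/-- The inner block: a shape dominated by the staircase has a nonzero certificate. -/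
theorem cert_inner {P : Type*} [Fintype P] [DecidableEq P] (a b : P → ℕ) (n : ℕ)
    (hab : IsStair n a b) {L : ℕ → ℕ} (hL : IsPart L (tri n)) (hd : Dominated L n) :
    ∃ row col : P → ℕ, IsShape L row col ∧
      ∃ h : (P → ℕ × ℕ) → ℤ, cert a b row col h ≠ 0 := by
  obtain ⟨col, row, hs, hweak, hstrict⟩ :=
    exists_filling n a b hab (isPart_conjShape hL) (le_psum_conjShape hL hd)
  have hshape : IsShape L row col := by
    refine ⟨fun x y h => hs.1 (by simp only [Prod.mk.injEq] at h ⊢; exact h.symm), fun i j => ?_⟩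
    rw [show (∃ x, row x = i ∧ col x = j) ↔ ∃ x, col x = j ∧ row x = i by simp [and_comm],
      hs.2 j i]
    simp [lt_conjShape_iff hL]
  by_contra hno
  have hc0 : ∀ r c : P → ℕ, IsShape L r c → ∀ h, cert a b r c h = 0 := fun r c hrc h =>
    by_contra fun hh => hno ⟨r, c, hrc, h, hh⟩
  obtain ⟨τ, hτ⟩ := hab.exists_transpose
  obtain ⟨F, hF⟩ := hab.exists_rowFlip
  obtain ⟨G, hG⟩ := hab.exists_colFlip
  have hzero : ∀ x σ : Perm P, ∑ p ∈ gr row, ∑ q ∈ gr col,
      sgnZ p * (symCoeff a b (x * p * q * σ) * symCoeff a b (x * p * q * σ)⁻¹) = 0 := by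
    intro x σ
    let g₀ := τ * x * σ
    have hsσ : IsShape L (fun z => row (σ z)) (fun z => col (σ z)) :=
      ⟨fun y z h => σ.injective (hshape.1 h), fun i j =>
        (σ.surjective.exists (p := fun z => row z = i ∧ col z = j)).symm.trans (hshape.2 i j)⟩
    have h := hc0 _ _ hsσ fun φ =>
      if φ = fun z => (n - 1 - a (g₀ z), n - 1 - b (g₀ z)) then 1 else 0
    have hcond : ∀ r c t : Perm P,
        ((fun z => (lev a b (r (t z)), lev a b (c (t z)))) =
          fun z => (n - 1 - a (g₀ z), n - 1 - b (g₀ z))) ↔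
        (∀ y, lev a b (r y) + a (g₀ (t⁻¹ y)) + 1 = n) ∧
          ∀ y, lev a b (c y) + b (g₀ (t⁻¹ y)) + 1 = n := by
      intro r c t
      rw [funext_iff, ← forall_and]
      conv_rhs => rw [t.surjective.forall]
      simp only [Prod.mk.injEq, Perm.coe_inv, Equiv.symm_apply_apply]
      refine forall_congr' fun z => ?_
      have := hab.lt (g₀ z)
      omega
    have h' : (∑ p ∈ gr fun z => row (σ z), ∑ q ∈ gr fun z => col (σ z),
        sgnZ q * ∑ r ∈ gr a, ∑ c ∈ gr b,
          if (∀ y, lev a b (r y) + a (g₀ ((q * p)⁻¹ y)) + 1 = n) ∧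
            (∀ y, lev a b (c y) + b (g₀ ((q * p)⁻¹ y)) + 1 = n)
          then sgnZ r * sgnZ c else 0) = 0 := by
      refine Eq.trans ?_ h
      rw [cert]
      simp only [Finset.mul_sum]
      conv_rhs =>
        rw [Finset.sum_congr rfl fun r _ => Finset.sum_comm]
        rw [Finset.sum_comm]
        rw [Finset.sum_congr rfl fun p _ => Finset.sum_congr rfl fun r _ => Finset.sum_comm]
        rw [Finset.sum_congr rfl fun p _ => Finset.sum_comm]
      refine Finset.sum_congr rfl fun p _ => Finset.sum_congr rfl fun q _ =>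
        Finset.sum_congr rfl fun r _ => Finset.sum_congr rfl fun c _ => ?_
      have hh := hcond r c (q * p)
      simp only [Perm.mul_apply] at hh
      simp only [hh]
      split_ifs <;> ring
    rw [sum_gr_comp] at h'
    simp only [sum_gr_comp] at h'
    have e : ∀ p q : Perm P, ∀ y, g₀ (((σ⁻¹ * q * σ) * (σ⁻¹ * p * σ))⁻¹ y) =
        τ ((x * p⁻¹ * q⁻¹ * σ) y) := fun p q y => by
      simp [g₀]
    simp only [e, wt_transpose hτ hF hG] at h'
    have e' : ∀ p q : Perm P, sgnZ (σ⁻¹ * q * σ) * (sgnZ F * sgnZ G *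
        (sgnZ (x * p⁻¹ * q⁻¹ * σ) *
          (symCoeff a b (x * p⁻¹ * q⁻¹ * σ) * symCoeff a b (x * p⁻¹ * q⁻¹ * σ)⁻¹))) =
        (sgnZ F * sgnZ G * sgnZ x * sgnZ σ) * (sgnZ p *
          (symCoeff a b (x * p⁻¹ * q⁻¹ * σ) * symCoeff a b (x * p⁻¹ * q⁻¹ * σ)⁻¹)) :=
      fun p q => by
        simp only [sgnZ_mul, sgnZ_inv]
        linear_combination (sgnZ F * sgnZ G * sgnZ x * sgnZ σ * sgnZ p *
          (symCoeff a b (x * p⁻¹ * q⁻¹ * σ) * symCoeff a b (x * p⁻¹ * q⁻¹ * σ)⁻¹)) *
          ((sgnZ σ * sgnZ σ) * sgnZ_mul_self q + sgnZ_mul_self σ)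
    simp only [e', ← Finset.mul_sum] at h'
    have hne : sgnZ F * sgnZ G * sgnZ x * sgnZ σ ≠ 0 := by
      simp [sgnZ]
    have h'' := (mul_eq_zero.mp h').resolve_left hne
    rw [← h'', ← sum_gr_inv]
    refine Finset.sum_congr rfl fun p _ => ?_
    rw [sgnZ_inv, Finset.mul_sum, ← sum_gr_inv]
  have hu := rowVector_eq_zero hab hzero
  have hpair : ∑ g : Perm P, (if ∀ x, a (g x) = a x then
      ∑ p ∈ gr row, ∑ q ∈ gr col, (if g * (q * p)⁻¹ ∈ gr a then sgnZ p else 0) else 0) = 0 := by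
    simp only [hu, ite_self, Finset.sum_const_zero]
  have e : ∀ g : Perm P, (if ∀ x, a (g x) = a x then
      ∑ p ∈ gr row, ∑ q ∈ gr col, (if g * (q * p)⁻¹ ∈ gr a then sgnZ p else 0) else 0) =
      ∑ p ∈ gr row, ∑ q ∈ gr col,
        if g * (q * p)⁻¹ ∈ gr a then (if ∀ x, a (g x) = a x then sgnZ p else 0) else 0 := fun g => by
    by_cases hg : ∀ x, a (g x) = a x <;> simp [hg]
  simp only [e] at hpair
  rw [Finset.sum_comm, Finset.sum_congr rfl fun p _ => Finset.sum_comm] at hpair
  simp only [sum_if_mem_mul] at hpair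
  refine absurd hpair (ne_of_gt ?_)
  have hterm : ∀ p ∈ gr row, ∀ q ∈ gr col, ∀ r ∈ gr a,
      (if ∀ x, a ((r * (q * p)) x) = a x then sgnZ p else 0) =
        if ∀ x, a (q (p x)) = a x then (1 : ℤ) else 0 := by
    intro p hp q hq r hr
    simp only [Perm.mul_apply, mem_gr.mp hr]
    split_ifs with hh
    · rw [eq_one_of_rearrange a row col hshape.1 (fun x y => hweak x y) (fun x y => hstrict x y)
        hp hq hh, sgnZ_one]
    · rfl
  refine Finset.sum_pos' (fun p hp => ?_) ⟨1, gr_one_mem, ?_⟩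
  · exact Finset.sum_nonneg fun q hq => Finset.sum_nonneg fun r hr => by
      rw [hterm p hp q hq r hr]; split_ifs <;> norm_num
  · refine Finset.sum_pos' (fun q hq => Finset.sum_nonneg fun r hr => by
      rw [hterm 1 gr_one_mem q hq r hr]; split_ifs <;> norm_num) ⟨1, gr_one_mem, ?_⟩
    refine Finset.sum_pos (fun r hr => ?_) ⟨1, gr_one_mem⟩
    rw [hterm 1 gr_one_mem 1 gr_one_mem r hr]
    simp

end Vale.Agent.P197
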