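import Vale.Agent.P197.Core

/-! The certificate for two adjacent levels of the staircase. -/

namespace Vale.Agent.P197

open Finset Equiv

/-- The parity of one of the four labels. -/
def labPar (l : Fin 4) : Bool := decide (2 ≤ l.val)

/-- Four anticommuting monomial forms. -/
def labForm (l : Fin 4) (s i : Bool) : ℤ :=
  if xor s i = labPar l then (if (decide (l.val % 2 = 1) && s) then -1 else 1) else 0

theorem labForm_anticomm : ∀ (l l' : Fin 4) (s i j : Bool), l ≠ l' →
    labForm l s i * labForm l' (!s) j - labForm l (!s) i * labForm l' s j +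
      (labForm l' s i * labForm l (!s) j - labForm l' (!s) i * labForm l s j) = 0 := by
  decide

theorem labForm_anticomm' : ∀ (l l' : Fin 4) (s i j : Bool), l ≠ l' →
    labForm l i s * labForm l' j (!s) - labForm l i (!s) * labForm l' j s +
      (labForm l' i s * labForm l j (!s) - labForm l' i (!s) * labForm l j s) = 0 := by
  decide

theorem labForm_ne_zero_iff : ∀ (l : Fin 4) (s i : Bool),
    labForm l s i ≠ 0 ↔ xor s i = labPar l := by
  decide

/-- The residue of a row index modulo four. -/
def rowLab (i : ℕ) : Fin 4 := ⟨i % 4, Nat.mod_lt i (by omega)⟩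

theorem labPar_add_two : ∀ l : Fin 4, labPar (l + 2) = !labPar l := by
  decide

variable {P : Type*} [Fintype P] [DecidableEq P]

/-- Whether a position lies on the upper of the two levels. -/
def upper (a b : P → ℕ) (n : ℕ) (x : P) : Bool := decide (lev a b x = n + 1)

/-- One term of the contraction. -/
def pairTerm (a b : P → ℕ) (n : ℕ) (F : P → Fin 4) (r c : Perm P) : ℤ :=
  ∏ y, labForm (F y) (upper a b n (r y)) (upper a b n (c y))

/-- The contraction of a labelling along two adjacent levels. -/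
noncomputable def pairSum (a b : P → ℕ) (n : ℕ) (F : P → Fin 4) : ℤ :=
  ∑ r ∈ gr a, ∑ c ∈ gr b, sgnZ r * sgnZ c * pairTerm a b n F r c

/-- Position along the zigzag path. -/
def pathPos (a b : P → ℕ) (n : ℕ) (x : P) : ℕ := 2 * a x + (n + 1 - lev a b x)

/-- The second bit along the path forced by a nonzero term. -/
def forcedSnd (π : ℕ → Bool) : ℕ → Bool
  | 0 => true
  | k + 1 => if k % 2 = 0 then xor (!(xor (forcedSnd π k) (π k))) (π (k + 1))
      else !forcedSnd π k

theorem forcedSnd_flip (π : ℕ → Bool) (k : ℕ) : forcedSnd (fun i => !π i) k = forcedSnd π k := by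
  induction k with
  | zero => rfl
  | succ k ih =>
    simp only [forcedSnd, ih]
    cases forcedSnd π k <;> cases π k <;> cases π (k + 1) <;> simp

theorem sum_eq_zero_of_swap {f : P → ℕ} {y y' : P} (hf : f y = f y') (hne : y ≠ y')
    (G : Perm P → ℤ) (hG : ∀ r ∈ gr f, G r = G (r * swap y y')) :
    ∑ r ∈ gr f, sgnZ r * G r = 0 := by
  refine Finset.sum_involution (fun r _ => r * swap y y') ?_ ?_ ?_ ?_
  · intro r hr
    rw [← hG r hr, sgnZ, sgnZ, map_mul, Perm.sign_swap hne]
    simp
  · intro r _ _ h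
    apply hne
    have e : r y' = r y := by simpa using congrArg (fun σ : Perm P => σ y) h
    exact (r.injective e).symm
  · intro r hr
    rw [mem_gr] at hr ⊢
    intro x
    rw [Perm.mul_apply, hr]
    rcases eq_or_ne x y with rfl | hx
    · rw [swap_apply_left, hf]
    · rcases eq_or_ne x y' with rfl | hx'
      · rw [swap_apply_right, hf]
      · rw [swap_apply_of_ne_of_ne hx hx']
  · intro r _
    simp [mul_assoc, swap_mul_self]

theorem sum_pair_swap {f : P → ℕ} {y y' : P} (hne : y ≠ y') (hf : f y = f y') (u : P → Bool)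
    (hu : ∀ z z', f z = f z' → z ≠ z' → u z' = !u z) (W : Fin 4 → Bool → Bool → ℤ) (v : P → Bool)
    (hW : ∀ (l l' : Fin 4) (s i j : Bool), l ≠ l' →
      W l s i * W l' (!s) j - W l (!s) i * W l' s j +
        (W l' s i * W l (!s) j - W l' (!s) i * W l s j) = 0)
    (F : P → Fin 4) (hF : F y ≠ F y') :
    ∑ r ∈ gr f, sgnZ r *
      (∏ z, W (F z) (u (r z)) (v z) + ∏ z, W (F (swap y y' z)) (u (r z)) (v z)) = 0 := by
  refine sum_eq_zero_of_swap hf hne _ fun r hr => ?_
  have split_prod : ∀ g : P → ℤ, ∏ z, g z = g y * (g y' * ∏ z ∈ (univ.erase y).erase y', g z) := by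
    intro g
    rw [mul_prod_erase _ _ (mem_erase.mpr ⟨hne.symm, mem_univ _⟩), mul_prod_erase _ _ (mem_univ y)]
  have hrest : ∀ z ∈ (univ.erase y).erase y', swap y y' z = z := fun z hz => by
    simp only [mem_erase, mem_univ, and_true] at hz
    exact swap_apply_of_ne_of_ne hz.2 hz.1
  have e₁ : ∀ g : P → P, ∏ z ∈ (univ.erase y).erase y', W (F (swap y y' z)) (u (g z)) (v z) =
      ∏ z ∈ (univ.erase y).erase y', W (F z) (u (g z)) (v z) :=
    fun g => prod_congr rfl fun z hz => by rw [hrest z hz]
  have e₂ : ∏ z ∈ (univ.erase y).erase y', W (F z) (u (r (swap y y' z))) (v z) =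
      ∏ z ∈ (univ.erase y).erase y', W (F z) (u (r z)) (v z) :=
    prod_congr rfl fun z hz => by rw [hrest z hz]
  have hs : u (r y') = !u (r y) :=
    hu _ _ (by rw [mem_gr.mp hr, mem_gr.mp hr, hf]) (r.injective.ne hne)
  simp only [split_prod, Perm.mul_apply, e₁, e₂, swap_apply_left, swap_apply_right, hs]
  linear_combination (∏ z ∈ (univ.erase y).erase y', W (F z) (u (r z)) (v z)) *
    hW (F y) (F y') (u (r y)) (v y) (v y') hF

section Band

variable {a b : P → ℕ} {n : ℕ}

omit [Fintype P] [DecidableEq P] in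
theorem lev_cases (hab : IsBand n 2 a b) (x : P) : lev a b x = n ∨ lev a b x = n + 1 := by
  have := (hab.2 (a x) (b x)).mp ⟨x, rfl, rfl⟩
  simp only [lev]
  omega

omit [Fintype P] [DecidableEq P] in
theorem upper_ne (hab : IsBand n 2 a b) {z z' : P} (h : a z = a z' ∨ b z = b z') (hne : z ≠ z') :
    upper a b n z' = !upper a b n z := by
  have hne' : lev a b z ≠ lev a b z' := fun e => hne (hab.1 (by
    simp only [lev] at e
    simp only [Prod.mk.injEq]
    omega))
  rcases lev_cases hab z with e | e <;> rcases lev_cases hab z' with e' | e' <;>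
    simp [upper, e, e'] at hne' ⊢

omit [Fintype P] [DecidableEq P] in
theorem exists_path (hab : IsBand n 2 a b) :
    ∃ e : P ≃ Fin (2 * n + 3), ∀ x, (e x : ℕ) = pathPos a b n x := by
  have hlt : ∀ x, pathPos a b n x < 2 * n + 3 := fun x => by
    rcases lev_cases hab x with e | e <;> simp only [pathPos, e] <;> simp only [lev] at e <;> omega
  refine ⟨Equiv.ofBijective (fun x => ⟨pathPos a b n x, hlt x⟩) ⟨fun x y hxy => ?_, fun k => ?_⟩,
    fun _ => rfl⟩
  · have hxy' : pathPos a b n x = pathPos a b n y := congrArg Fin.val hxy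
    apply hab.1
    simp only [Prod.mk.injEq]
    rcases lev_cases hab x with e | e <;> rcases lev_cases hab y with e' | e' <;>
      simp only [pathPos, e, e'] at hxy' <;> simp only [lev] at e e' <;> omega
  · obtain ⟨k, hk⟩ := k
    rcases Nat.mod_two_eq_zero_or_one k with h | h
    · obtain ⟨x, hx, hy⟩ := (hab.2 (k / 2) (n + 1 - k / 2)).mpr ⟨by omega, by omega⟩
      exact ⟨x, Fin.ext (by simp only [pathPos, lev, hx, hy]; omega)⟩
    · obtain ⟨x, hx, hy⟩ := (hab.2 (k / 2) (n - k / 2)).mpr ⟨by omega, by omega⟩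
      exact ⟨x, Fin.ext (by simp only [pathPos, lev, hx, hy]; omega)⟩

theorem pairSum_swap (hab : IsBand n 2 a b) {y y' : P} (hne : y ≠ y')
    (h : a y = a y' ∨ b y = b y') {F : P → Fin 4} (hF : F y ≠ F y') :
    pairSum a b n (F ∘ swap y y') = - pairSum a b n F := by
  rw [eq_neg_iff_add_eq_zero, add_comm, pairSum, pairSum, ← sum_add_distrib]
  rcases h with h | h
  · simp only [← sum_add_distrib]
    rw [sum_comm]
    refine sum_eq_zero fun c _ => ?_
    have key := sum_pair_swap hne h (upper a b n) (fun z z' e => upper_ne hab (Or.inl e)) labForm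
      (fun z => upper a b n (c z)) labForm_anticomm F hF
    refine Eq.trans ?_ (mul_eq_zero_of_right (sgnZ c) key)
    rw [mul_sum]
    refine sum_congr rfl fun r _ => ?_
    simp only [pairTerm, Function.comp_apply]
    ring
  · refine sum_eq_zero fun r _ => ?_
    have key := sum_pair_swap hne h (upper a b n) (fun z z' e => upper_ne hab (Or.inr e))
      (fun l s i => labForm l i s) (fun z => upper a b n (r z)) labForm_anticomm' F hF
    refine Eq.trans ?_ (mul_eq_zero_of_right (sgnZ r) key)
    rw [mul_sum, ← sum_add_distrib]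
    refine sum_congr rfl fun c _ => ?_
    simp only [pairTerm, Function.comp_apply]
    ring

theorem pairSum_colPerm (hab : IsBand n 2 a b) {col : P → ℕ}
    (hmono : ∀ x y, pathPos a b n x ≤ pathPos a b n y → col x ≤ col y) {F : P → Fin 4}
    (hF : ∀ x y, col x = col y → F x = F y → x = y) :
    ∀ q ∈ gr col, pairSum a b n (F ∘ q) = sgnZ q * pairSum a b n F := by
  obtain ⟨e, he⟩ := exists_path hab
  let val : Perm P → ℕ := fun q => ∑ x, pathPos a b n x * pathPos a b n (q x)
  suffices H : ∀ M (q : Perm P), Fintype.card P * (2 * n + 3) ^ 2 - val q = M → q ∈ gr col →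
      pairSum a b n (F ∘ q) = sgnZ q * pairSum a b n F from fun q hq => H _ q rfl hq
  intro M
  induction M using Nat.strong_induction_on with
  | _ M ih =>
  intro q hM hq
  by_cases hq1 : q = 1
  · subst hq1
    simp [sgnZ]
  obtain ⟨i, hi⟩ : ∃ i : Fin (2 * n + 2), e (q (e.symm i.succ)) < e (q (e.symm i.castSucc)) := by
    by_contra hcon
    push Not at hcon
    apply hq1
    let σ : Fin (2 * n + 3) ≃ Fin (2 * n + 3) := (e.symm.trans q).trans e
    have hσ : StrictMono σ := Fin.strictMono_iff_lt_succ.mpr fun i =>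
      lt_of_le_of_ne (hcon i) fun h => (Fin.castSucc_lt_succ (i := i)).ne (σ.injective h)
    have hid := StrictMono.orderIsoOfSurjective σ hσ σ.surjective
    ext x
    have h1 : ∀ k, σ k = k := fun k => by
      have := congrArg (fun o : Fin (2 * n + 3) ≃o Fin (2 * n + 3) => o k)
        (Subsingleton.elim (StrictMono.orderIsoOfSurjective σ hσ σ.surjective) (OrderIso.refl _))
      simpa using this
    have := h1 (e x)
    simpa [σ] using this
  obtain ⟨y, hy⟩ : ∃ y, y = e.symm i.castSucc := ⟨_, rfl⟩
  obtain ⟨y', hy'⟩ : ∃ y', y' = e.symm i.succ := ⟨_, rfl⟩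
  rw [← hy, ← hy'] at hi
  have ky : pathPos a b n y = i := by rw [← he, hy]; simp
  have ky' : pathPos a b n y' = i + 1 := by rw [← he, hy']; simp
  have hlt : pathPos a b n (q y') < pathPos a b n (q y) := by
    rw [← he, ← he]
    exact hi
  have hne : y ≠ y' := fun h => by rw [h] at ky; omega
  have hcol : col y = col y' := by
    have e₁ := hmono y y' (by omega)
    have e₂ := hmono (q y') (q y) hlt.le
    rw [mem_gr.mp hq, mem_gr.mp hq] at e₂
    omega
  have hshare : a y = a y' ∨ b y = b y' := by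
    rcases lev_cases hab y with e₁ | e₁ <;> rcases lev_cases hab y' with e₂ | e₂ <;>
      simp only [pathPos, e₁, e₂] at ky ky' <;> simp only [lev] at e₁ e₂ <;> omega
  have hq' : q * swap y y' ∈ gr col := by
    rw [mem_gr]
    intro x
    rw [Perm.mul_apply, mem_gr.mp hq]
    rcases eq_or_ne x y with rfl | hx
    · rw [swap_apply_left, hcol]
    · rcases eq_or_ne x y' with rfl | hx'
      · rw [swap_apply_right, hcol]
      · rw [swap_apply_of_ne_of_ne hx hx']
  have hval : val q < val (q * swap y y') := by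
    have split_sum : ∀ g : P → ℕ, ∑ z, g z = g y + (g y' + ∑ z ∈ (univ.erase y).erase y', g z) := by
      intro g
      rw [add_sum_erase _ _ (mem_erase.mpr ⟨hne.symm, mem_univ _⟩), add_sum_erase _ _ (mem_univ y)]
    have e₁ : ∑ z ∈ (univ.erase y).erase y', pathPos a b n z * pathPos a b n ((q * swap y y') z) =
        ∑ z ∈ (univ.erase y).erase y', pathPos a b n z * pathPos a b n (q z) :=
      sum_congr rfl fun z hz => by
        simp only [mem_erase, mem_univ, and_true] at hz
        rw [Perm.mul_apply, swap_apply_of_ne_of_ne hz.2 hz.1]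
    simp only [val, split_sum]
    rw [e₁]
    simp only [Perm.mul_apply, swap_apply_left, swap_apply_right, ky, ky']
    simp only [Nat.add_mul, one_mul]
    omega
  have hbound : val (q * swap y y') ≤ Fintype.card P * (2 * n + 3) ^ 2 := by
    refine (sum_le_card_nsmul univ _ ((2 * n + 3) ^ 2) fun x _ => ?_).trans (by simp)
    rw [pow_two, ← he, ← he]
    exact Nat.mul_le_mul (e x).isLt.le (e _).isLt.le
  have hFne : F (q y) ≠ F (q y') := fun h => hne (q.injective (hF _ _ (by
    rw [mem_gr.mp hq, mem_gr.mp hq, hcol]) h))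
  have e₁ : F ∘ q = (F ∘ ⇑(q * swap y y')) ∘ swap y y' := by
    funext x
    simp
  have hsw := pairSum_swap hab hne hshare (F := F ∘ ⇑(q * swap y y'))
    (by simpa using hFne.symm)
  rw [e₁, hsw, ih _ (by omega) (q * swap y y') rfl hq', sgnZ, sgnZ, map_mul, Perm.sign_swap hne]
  simp

omit [DecidableEq P] in
theorem pairTerm_bits (hab : IsBand n 2 a b) {F : P → Fin 4} {r c : Perm P} (hr : r ∈ gr a)
    (hc : c ∈ gr b) (hne : pairTerm a b n F r c ≠ 0) (π : ℕ → Bool)
    (hπ : ∀ x, labPar (F x) = π (pathPos a b n x)) (y : P) :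
    upper a b n (c y) = forcedSnd π (pathPos a b n y) ∧
      upper a b n (r y) = xor (forcedSnd π (pathPos a b n y)) (π (pathPos a b n y)) := by
  obtain ⟨e, he⟩ := exists_path hab
  have hx : ∀ x, xor (upper a b n (r x)) (upper a b n (c x)) = π (pathPos a b n x) := fun x => by
    rw [← hπ, ← labForm_ne_zero_iff]
    exact fun h => hne (prod_eq_zero (mem_univ x) h)
  suffices H : ∀ k y, pathPos a b n y = k → upper a b n (c y) = forcedSnd π k by
    have h1 := H _ y rfl
    refine ⟨h1, ?_⟩
    rw [← hx y, ← h1]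
    cases upper a b n (r y) <;> cases upper a b n (c y) <;> rfl
  intro k
  induction k with
  | zero =>
    intro y hy
    have hcy := mem_gr.mp hc y
    rcases lev_cases hab y with e₁ | e₁ <;> rcases lev_cases hab (c y) with e₂ | e₂ <;>
      simp only [pathPos, e₁] at hy <;> simp only [lev] at e₁ e₂ <;>
      first
        | omega
        | simp [forcedSnd, upper, lev, e₂]
  | succ k ih =>
    intro y hy
    have hk : k < 2 * n + 3 := by
      have := (e y).isLt
      rw [he] at this
      omega
    obtain ⟨z, hz⟩ : ∃ z, pathPos a b n z = k :=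
      ⟨e.symm ⟨k, hk⟩, by rw [← he, Equiv.apply_symm_apply]⟩
    have hzy : z ≠ y := fun h => by rw [h] at hz; omega
    have hic := ih z hz
    rcases Nat.mod_two_eq_zero_or_one k with hpar | hpar
    · have hazy : a z = a y := by
        rcases lev_cases hab y with e₁ | e₁ <;> rcases lev_cases hab z with e₂ | e₂ <;>
          simp only [pathPos, e₁] at hy <;> simp only [pathPos, e₂] at hz <;>
          simp only [lev] at e₁ e₂ <;> omega
      have h1 : upper a b n (r y) = !upper a b n (r z) :=
        upper_ne hab (Or.inl (by rw [mem_gr.mp hr, mem_gr.mp hr, hazy])) (r.injective.ne hzy)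
      have h2 := hx z
      have h3 := hx y
      rw [hz, hic] at h2
      rw [hy, h1] at h3
      simp only [forcedSnd, hpar, if_true]
      revert h2 h3
      cases upper a b n (r z) <;> cases upper a b n (c y) <;> cases forcedSnd π k <;>
        cases π k <;> cases π (k + 1) <;> simp
    · have hbzy : b z = b y := by
        rcases lev_cases hab y with e₁ | e₁ <;> rcases lev_cases hab z with e₂ | e₂ <;>
          simp only [pathPos, e₁] at hy <;> simp only [pathPos, e₂] at hz <;>
          simp only [lev] at e₁ e₂ <;> omega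
      rw [upper_ne hab (Or.inr (by rw [mem_gr.mp hc, mem_gr.mp hc, hbzy])) (c.injective.ne hzy),
        hic]
      simp [forcedSnd, hpar]

theorem exists_perm_upper (hab : IsBand n 2 a b) (f : P → ℕ) (hf : f = a ∨ f = b)
    (β : P → Bool) (hpair : ∀ x y, f x = f y → x ≠ y → β y = !β x)
    (hsingle : ∀ x, f x = n + 1 → β x = true) :
    ∃ σ : Perm P, σ ∈ gr f ∧ ∀ x, upper a b n (σ x) = β x := by
  have hle : ∀ x, f x ≤ n + 1 := fun x => by
    rcases lev_cases hab x with h | h <;> rcases hf with rfl | rfl <;> simp only [lev] at h <;> omega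
  have hex : ∀ x, ∃ y, f y = f x ∧ upper a b n y = β x := by
    intro x
    have hfx := hle x
    cases hβ : β x with
    | false =>
      have hlt : f x ≤ n := by
        by_contra hcon
        have h1 := hsingle x (by omega)
        rw [hβ] at h1
        exact Bool.false_ne_true h1
      rcases hf with hf | hf
      · obtain ⟨y, hy, hy'⟩ := (hab.2 (f x) (n - f x)).mpr ⟨by omega, by omega⟩
        exact ⟨y, by rw [hf] at hy ⊢; exact hy, by simp [upper, lev, hy, hy']; omega⟩
      · obtain ⟨y, hy, hy'⟩ := (hab.2 (n - f x) (f x)).mpr ⟨by omega, by omega⟩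
        exact ⟨y, by rw [hf] at hy' ⊢; exact hy', by simp [upper, lev, hy, hy']; omega⟩
    | true =>
      rcases hf with hf | hf
      · obtain ⟨y, hy, hy'⟩ := (hab.2 (f x) (n + 1 - f x)).mpr ⟨by omega, by omega⟩
        exact ⟨y, by rw [hf] at hy ⊢; exact hy, by simp [upper, lev, hy, hy']; omega⟩
      · obtain ⟨y, hy, hy'⟩ := (hab.2 (n + 1 - f x) (f x)).mpr ⟨by omega, by omega⟩
        exact ⟨y, by rw [hf] at hy' ⊢; exact hy', by simp [upper, lev, hy, hy']; omega⟩
  choose g hg hgu using hex
  have hinj : Function.Injective g := fun x y hxy => by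
    by_contra hne
    have h := hpair x y (by rw [← hg x, ← hg y, hxy]) hne
    rw [← hgu x, ← hgu y, hxy] at h
    cases hu : upper a b n (g y) <;> simp [hu] at h
  exact ⟨Equiv.ofBijective g ⟨hinj, Finite.injective_iff_surjective.mp hinj⟩,
    mem_gr.mpr hg, hgu⟩

theorem pairSum_ne_zero (hab : IsBand n 2 a b) (F : P → Fin 4) (π : ℕ → Bool)
    (hπ : ∀ x, labPar (F x) = π (pathPos a b n x))
    (hend : xor (forcedSnd π (2 * n + 2)) (π (2 * n + 2)) = true) : pairSum a b n F ≠ 0 := by
  let C : P → Bool := fun x => forcedSnd π (pathPos a b n x)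
  let R : P → Bool := fun x => xor (C x) (π (pathPos a b n x))
  obtain ⟨r, hr, hru⟩ := exists_perm_upper hab a (Or.inl rfl) R
    (fun x y hxy hne => by
      have hux := upper_ne hab (Or.inl hxy) hne
      obtain ⟨k, hk, ⟨h0, h1⟩ | ⟨h0, h1⟩⟩ : ∃ k, k % 2 = 0 ∧
          ((pathPos a b n x = k ∧ pathPos a b n y = k + 1) ∨
            (pathPos a b n y = k ∧ pathPos a b n x = k + 1)) := by
        refine ⟨2 * a x, by omega, ?_⟩
        rcases lev_cases hab x with e₁ | e₁ <;> rcases lev_cases hab y with e₂ | e₂ <;>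
          simp [upper, e₁, e₂] at hux <;> simp only [pathPos, e₁, e₂] <;> omega
      all_goals
        simp only [R, C, h0, h1, forcedSnd, hk, if_true]
        cases forcedSnd π k <;> cases π k <;> cases π (k + 1) <;> rfl)
    (fun x hx => by
      have : pathPos a b n x = 2 * n + 2 := by
        rcases lev_cases hab x with e₁ | e₁ <;> simp only [pathPos, e₁] <;>
          simp only [lev] at e₁ <;> omega
      simp only [R, C, this, hend])
  obtain ⟨c, hc, hcu⟩ := exists_perm_upper hab b (Or.inr rfl) C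
    (fun x y hxy hne => by
      have hux := upper_ne hab (Or.inr hxy) hne
      obtain ⟨k, hk, ⟨h0, h1⟩ | ⟨h0, h1⟩⟩ : ∃ k, k % 2 = 1 ∧
          ((pathPos a b n x = k ∧ pathPos a b n y = k + 1) ∨
            (pathPos a b n y = k ∧ pathPos a b n x = k + 1)) := by
        refine ⟨2 * (n - b x) + 1, by omega, ?_⟩
        rcases lev_cases hab x with e₁ | e₁ <;> rcases lev_cases hab y with e₂ | e₂ <;>
          simp [upper, e₁, e₂] at hux <;> simp only [pathPos, e₁, e₂] <;>
          simp only [lev] at e₁ e₂ <;> omega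
      all_goals
        simp only [C, h0, h1, forcedSnd, hk]
        cases forcedSnd π k <;> simp)
    (fun x hx => by
      have : pathPos a b n x = 0 := by
        rcases lev_cases hab x with e₁ | e₁ <;> simp only [pathPos, e₁] <;>
          simp only [lev] at e₁ <;> omega
      simp only [C, this, forcedSnd])
  have huniq : ∀ {f : P → ℕ}, (f = a ∨ f = b) → ∀ {σ τ : Perm P}, σ ∈ gr f → τ ∈ gr f →
      (∀ x, upper a b n (σ x) = upper a b n (τ x)) → σ = τ := by
    intro f hf σ τ hσ hτ h
    ext x
    by_contra hne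
    have h0 : f (σ x) = f (τ x) := by rw [mem_gr.mp hσ, mem_gr.mp hτ]
    have h1 := upper_ne hab (z := σ x) (z' := τ x)
      (by rcases hf with rfl | rfl
          · exact Or.inl h0
          · exact Or.inr h0) hne
    rw [h x] at h1
    cases hu : upper a b n (τ x) <;> simp [hu] at h1
  have hsum : pairSum a b n F = sgnZ r * sgnZ c * pairTerm a b n F r c := by
    rw [pairSum, sum_eq_single_of_mem r hr fun r' hr' hne => ?_,
      sum_eq_single_of_mem c hc fun c' hc' hne => ?_]
    · by_contra h
      exact hne (huniq (Or.inr rfl) hc' hc fun x => by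
        rw [hcu, (pairTerm_bits hab hr hc' (right_ne_zero_of_mul h) π hπ x).1])
    · refine sum_eq_zero fun c' hc' => ?_
      by_contra h
      exact hne (huniq (Or.inl rfl) hr' hr fun x => by
        rw [hru, (pairTerm_bits hab hr' hc' (right_ne_zero_of_mul h) π hπ x).2])
  rw [hsum]
  refine mul_ne_zero (mul_ne_zero (Units.ne_zero _) (Units.ne_zero _))
    (prod_ne_zero_iff.mpr fun x _ => (labForm_ne_zero_iff _ _ _).mpr ?_)
  rw [hru, hcu, hπ]
  show xor (xor (C x) (π (pathPos a b n x))) (C x) = π (pathPos a b n x)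
  cases C x <;> cases π (pathPos a b n x) <;> rfl

end Band

/-- Two adjacent levels carry a skew shape with at most four cells in each column. -/
theorem cert_pair {P : Type*} [Fintype P] [DecidableEq P] (a b : P → ℕ) (n : ℕ) (hab : IsBand n 2 a b)
    {L L' : ℕ → ℕ} {N N' : ℕ} (hL : IsPart L N) (hL' : IsPart L' N') (hle : ∀ i, L' i ≤ L i)
    (h4 : ∀ i, L (i + 4) ≤ L' i) (hcard : N = N' + Fintype.card P) :
    ∃ row col : P → ℕ, IsSkew L L' row col ∧ ∃ h : (P → ℕ × ℕ) → ℤ, cert a b row col h ≠ 0 := by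
  classical
  obtain ⟨e, he⟩ := exists_path hab
  obtain ⟨row₀, col₀, hs₀⟩ := exists_isSkew hL hL' hle hcard
  let σ : P ≃ P := (e.trans (Tuple.sort (col₀ ∘ e.symm))).trans e.symm
  obtain ⟨row, hrow⟩ : ∃ row, row = row₀ ∘ σ := ⟨_, rfl⟩
  obtain ⟨col, hcoldef⟩ : ∃ col, col = col₀ ∘ σ := ⟨_, rfl⟩
  have hs : IsSkew L L' row col := by
    subst hrow hcoldef
    refine ⟨fun x y hxy => σ.injective (hs₀.1 hxy), fun i j => ?_⟩
    rw [← hs₀.2 i j]
    exact ⟨fun ⟨x, h⟩ => ⟨σ x, h⟩, fun ⟨x, h⟩ => ⟨σ.symm x, by simpa using h⟩⟩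
  have hmono : ∀ x y, pathPos a b n x ≤ pathPos a b n y → col x ≤ col y := by
    intro x y hxy
    rw [← he, ← he] at hxy
    rw [hcoldef]
    exact Tuple.monotone_sort (col₀ ∘ e.symm) hxy
  have hlab : ∀ (d : Fin 4) x y, col x = col y →
      (rowLab (row x) + d) = (rowLab (row y) + d) → x = y := by
    intro d x y hxy hl
    have h0 : row x % 4 = row y % 4 := by
      simpa [rowLab] using congrArg Fin.val (add_right_cancel hl)
    have key : ∀ u v, col u = col v → row v < row u + 4 := by
      intro u v huv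
      by_contra hcon
      have h1 := (hs.2 (row u) (col u)).mp ⟨u, rfl, rfl⟩
      have h2 := (hs.2 (row v) (col v)).mp ⟨v, rfl, rfl⟩
      have h3 := hL.1 (not_lt.mp hcon)
      have h4' := h4 (row u)
      omega
    have := key x y hxy
    have := key y x hxy.symm
    exact hs.1 (Prod.ext (by change row x = row y; omega) hxy)
  let π : ℕ → Bool := fun k => if h : k < 2 * n + 3 then labPar (rowLab (row (e.symm ⟨k, h⟩))) else false
  obtain ⟨d, π', hπ', hend⟩ : ∃ (d : Fin 4) (π' : ℕ → Bool),
      (∀ x, labPar (rowLab (row x) + d) = π' (pathPos a b n x)) ∧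
        xor (forcedSnd π' (2 * n + 2)) (π' (2 * n + 2)) = true := by
    have hπ : ∀ x, labPar (rowLab (row x)) = π (pathPos a b n x) := fun x => by
      rw [← he]
      simp only [π, dif_pos (e x).isLt, Fin.eta, Equiv.symm_apply_apply]
    cases h : xor (forcedSnd π (2 * n + 2)) (π (2 * n + 2)) with
    | true => exact ⟨0, π, fun x => by rw [add_zero, hπ], h⟩
    | false =>
      refine ⟨2, fun k => !π k, fun x => by rw [labPar_add_two, hπ], ?_⟩
      rw [forcedSnd_flip]
      have key : ∀ u v : Bool, xor u v = false → xor u (!v) = true := by decide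
      exact key _ _ h
  obtain ⟨F, hF⟩ : ∃ F : P → Fin 4, F = fun x => rowLab (row x) + d := ⟨_, rfl⟩
  refine ⟨row, col, hs,
    fun φ => ∏ x, labForm (F x) (decide ((φ x).1 = n + 1)) (decide ((φ x).2 = n + 1)), ?_⟩
  have hterm : ∀ (r c : Perm P), ∀ p ∈ gr row, ∀ q : Perm P,
      (∏ x, labForm (F x) (decide (lev a b (r (q (p x))) = n + 1))
        (decide (lev a b (c (q (p x))) = n + 1))) = pairTerm a b n (F ∘ ⇑q⁻¹) r c := by
    intro r c p hp q
    refine Fintype.prod_equiv (p.trans q) _ _ fun x => ?_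
    simp only [upper, hF, Function.comp_apply, Equiv.trans_apply, Perm.inv_def,
      Equiv.symm_apply_apply, mem_gr.mp hp x]
    congr 1
  have hcert : cert a b row col
      (fun φ => ∏ x, labForm (F x) (decide ((φ x).1 = n + 1)) (decide ((φ x).2 = n + 1))) =
      ∑ _p ∈ gr row, ∑ q ∈ gr col, sgnZ q * pairSum a b n (F ∘ ⇑q⁻¹) := by
    have e₁ : ∀ r ∈ gr a, ∀ c ∈ gr b, ∀ p ∈ gr row, ∀ q ∈ gr col,
        sgnZ r * sgnZ c * sgnZ q *
          (∏ x, labForm (F x) (decide (lev a b (r (q (p x))) = n + 1))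
            (decide (lev a b (c (q (p x))) = n + 1))) =
        sgnZ q * (sgnZ r * sgnZ c * pairTerm a b n (F ∘ ⇑q⁻¹) r c) := by
      intro r _ c _ p hp q _
      rw [hterm r c p hp q]
      ring
    rw [cert, sum_congr rfl fun r hr => sum_congr rfl fun c hc =>
      sum_congr rfl fun p hp => sum_congr rfl (e₁ r hr c hc p hp)]
    simp only [pairSum, mul_sum]
    rw [sum_congr rfl fun r _ => sum_comm, sum_comm]
    refine sum_congr rfl fun p _ => ?_
    rw [sum_congr rfl fun r _ => sum_comm, sum_comm]
  have hq : ∀ q ∈ gr col, sgnZ q * pairSum a b n (F ∘ ⇑q⁻¹) = pairSum a b n F := by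
    intro q hq
    have hinv : q⁻¹ ∈ gr col := mem_gr.mpr fun x => by
      rw [← mem_gr.mp hq (q⁻¹ x), Perm.inv_def, Equiv.apply_symm_apply]
    rw [pairSum_colPerm hab hmono (by rw [hF]; exact hlab d) q⁻¹ hinv, sgnZ, sgnZ, map_inv,
      Int.units_inv_eq_self, ← mul_assoc, ← Units.val_mul, Int.units_mul_self, Units.val_one,
      one_mul]
  rw [hcert, sum_congr rfl fun p _ => sum_congr rfl hq]
  simp only [sum_const, nsmul_eq_mul]
  have hne : pairSum a b n F ≠ 0 := pairSum_ne_zero hab F π' (by rw [hF]; exact hπ') hend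
  have c₁ : (0 : ℕ) < (gr row).card := card_pos.mpr ⟨1, mem_gr.mpr fun _ => rfl⟩
  have c₂ : (0 : ℕ) < (gr col).card := card_pos.mpr ⟨1, mem_gr.mpr fun _ => rfl⟩
  exact mul_ne_zero (by exact_mod_cast c₁.ne') (mul_ne_zero (by exact_mod_cast c₂.ne') hne)

end Vale.Agent.P197
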