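import Vale.Agent.P197.Core

/-!
Partition combinatorics: removing strips, the stopping criterion, conjugation.
-/

namespace Vale.Agent.P197

open Finset

theorem psum_succ (L : ℕ → ℕ) (i : ℕ) : psum L (i + 1) = psum L i + L i := sum_range_succ ..

theorem psum_mono (L : ℕ → ℕ) {i j : ℕ} (h : i ≤ j) : psum L i ≤ psum L j :=
  sum_le_sum_of_subset (range_subset_range.2 h)

theorem psum_le_total {L : ℕ → ℕ} {N : ℕ} (hL : IsPart L N) (i : ℕ) : psum L i ≤ N := by
  obtain ⟨M, -, hM⟩ := hL.eventually_zero
  exact (psum_mono L (le_max_left i M)).trans (hM _ (le_max_right i M)).le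

theorem psum_add_le_mul {L : ℕ → ℕ} (hL : Antitone L) (i j : ℕ) :
    psum L (i + j) ≤ psum L i + j * L i := by
  induction j with
  | zero => simp
  | succ j ih =>
    rw [← Nat.add_assoc, psum_succ, Nat.succ_mul]
    have := hL (show i ≤ i + j by omega)
    omega

theorem rhoSum_succ (n i : ℕ) : rhoSum n (i + 1) = rhoSum n i + (n - i) := psum_succ _ i

theorem rhoSum_of_le {n i : ℕ} (hi : n ≤ i) : rhoSum n i = tri n := by
  refine (sum_subset (range_subset_range.2 hi) fun k _ hk => ?_).symm
  simp only [mem_range] at hk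
  omega

theorem rhoSum_succ_succ (n i : ℕ) : rhoSum (n + 1) (i + 1) = rhoSum n i + (n + 1) := by
  induction i with
  | zero => simp [rhoSum, psum]
  | succ i ih =>
    rw [rhoSum_succ, ih, rhoSum_succ n i]
    omega

theorem tri_succ (n : ℕ) : tri (n + 1) = tri n + (n + 1) := rhoSum_succ_succ n n

theorem rhoSum_le_succ (n i : ℕ) : rhoSum n i ≤ rhoSum (n + 1) i :=
  Finset.sum_le_sum (s := range i) (f := fun j => n - j) (g := fun j => n + 1 - j)
    fun j _ => Nat.sub_le_sub_right n.le_succ j

theorem two_rhoSum {n i : ℕ} (hi : i ≤ n) : 2 * rhoSum n i + i * i = 2 * i * n + i := by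
  induction i with
  | zero => simp [rhoSum, psum]
  | succ i ih =>
    have := ih (by omega)
    rw [rhoSum_succ]
    have e : n - i + i = n := by omega
    nlinarith

theorem psum_window_succ (L : ℕ → ℕ) (h i : ℕ) :
    psum (fun j => L (i + 1 + j)) h + L i = psum (fun j => L (i + j)) h + L (i + h) := by
  induction h with
  | zero => simp [psum]
  | succ h ih =>
    rw [psum_succ, psum_succ]
    simp only [show i + 1 + h = i + (h + 1) by omega]
    omega

theorem stripShape_le {L : ℕ → ℕ} (hL : Antitone L) (h K i : ℕ) :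
    stripShape L h K i ≤ L i ∧ L (i + h) ≤ stripShape L h K i := by
  have := psum_window_succ L h i
  have := hL (show i ≤ i + h by omega)
  unfold stripShape
  omega

theorem psum_stripShape {L : ℕ → ℕ} (hL : Antitone L) {h K : ℕ} (hK : K ≤ psum L h) (i : ℕ) :
    psum (stripShape L h K) i + K = psum L i + min K (psum (fun j => L (i + j)) h) := by
  induction i with
  | zero => simp [psum] at hK ⊢; omega
  | succ i ih =>
    rw [psum_succ, psum_succ]
    have := psum_window_succ L h i
    have := hL (show i ≤ i + h by omega)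
    have e : stripShape L h K i =
        L i + min K (psum (fun j => L (i + 1 + j)) h) - min K (psum (fun j => L (i + j)) h) := rfl
    omega

theorem stripShape_spec {L : ℕ → ℕ} {N : ℕ} (hL : IsPart L N) {h K : ℕ} (hh : 0 < h)
    (hK : K ≤ psum L h) :
    IsPart (stripShape L h K) (N - K) ∧ K ≤ N ∧
      ∀ i, stripShape L h K i ≤ L i ∧ L (i + h) ≤ stripShape L h K i := by
  obtain ⟨M, hzero, hsum⟩ := hL.eventually_zero
  refine ⟨⟨antitone_nat_of_succ_le fun i => ?_, M, fun k hk => ?_⟩,
    hK.trans (psum_le_total hL h), stripShape_le hL.1 h K⟩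
  · have := psum_window_succ L h i
    have := psum_window_succ L h (i + 1)
    have := hL.1 (show i ≤ i + 1 by omega)
    have := hL.1 (show i + h ≤ i + 1 + h by omega)
    have := hL.1 (show i + 1 ≤ i + h by omega)
    unfold stripShape
    omega
  · have hw : psum (fun j => L (k + j)) h = 0 :=
      sum_eq_zero fun j _ => hzero _ (by omega)
    have := psum_stripShape hL.1 hK k
    have := hsum k hk
    omega

theorem dominated_of_stuck {L : ℕ → ℕ} {n : ℕ} (hL : IsPart L (tri n)) (h1 : L 0 < n ∨ n = 0)
    (h4 : psum L 4 < 2 * n - 1 ∨ n = 0) : Dominated L n := by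
  intro i
  rcases le_or_gt n i with hni | hin
  · exact (psum_le_total hL i).trans (rhoSum_of_le hni).ge
  · have hR := two_rhoSum hin.le
    have e1 : psum L 1 = L 0 := by simp [psum]
    rcases le_or_gt i 4 with hi | hi
    · have hm := psum_mono L hi
      interval_cases i
      · simp [psum]
      all_goals omega
    · obtain ⟨j, rfl⟩ := Nat.exists_eq_add_of_le hi.le
      have hm := psum_add_le_mul hL.1 4 j
      have h43 : L 4 ≤ L 3 := hL.1 (by omega)
      have h32 : L 3 ≤ L 2 := hL.1 (by omega)
      have h21 : L 2 ≤ L 1 := hL.1 (by omega)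
      have h10 : L 1 ≤ L 0 := hL.1 (by omega)
      have e4 : psum L 4 = L 0 + L 1 + L 2 + L 3 := by simp [psum, sum_range_succ]
      have hj : 2 * (j * L 4) ≤ j * (n - 1) := by
        rw [← Nat.mul_assoc, Nat.mul_comm 2 j, Nat.mul_assoc]
        exact Nat.mul_le_mul_left j (by omega)
      obtain ⟨c, rfl⟩ := Nat.exists_eq_add_of_lt hin
      simp only [Nat.add_sub_cancel] at hj
      have h4' : psum L 4 + 2 ≤ 2 * (4 + j + c + 1) := by omega
      nlinarith

/-- The conjugate partition. -/
noncomputable def conjShape (L : ℕ → ℕ) (j : ℕ) : ℕ := Nat.card {i : ℕ // j < L i}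

theorem conjShape_eq {L : ℕ → ℕ} {M : ℕ} (hM : ∀ i, M ≤ i → L i = 0) (j : ℕ) :
    conjShape L j = ((range M).filter fun i => j < L i).card := by
  rw [conjShape, ← Nat.subtype_card (p := fun i => j < L i) ((range M).filter fun i => j < L i)]
  intro i
  simp only [mem_filter, mem_range, and_iff_right_iff_imp]
  intro hi
  by_contra hc
  rw [hM i (not_lt.1 hc)] at hi
  omega

theorem lt_conjShape_iff {L : ℕ → ℕ} {N : ℕ} (hL : IsPart L N) (i j : ℕ) :
    i < conjShape L j ↔ j < L i := by
  obtain ⟨M, hM, -⟩ := hL.eventually_zero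
  rw [conjShape_eq hM]
  set P := (range M).filter fun i => j < L i
  constructor
  · intro hi
    by_contra hc
    have : P ⊆ range i := fun l hl => by
      rw [mem_range]
      by_contra hli
      simp only [P, mem_filter] at hl
      have := hL.1 (not_lt.1 hli)
      omega
    have := card_le_card this
    rw [card_range] at this
    omega
  · intro hi
    have : range (i + 1) ⊆ P := fun l hl => by
      simp only [mem_range] at hl
      simp only [P, mem_filter, mem_range]
      have := hL.1 (show l ≤ i by omega)
      refine ⟨?_, by omega⟩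
      by_contra hc
      have := hM l (not_lt.1 hc)
      omega
    have := card_le_card this
    rw [card_range] at this
    omega

theorem psum_conjShape {L : ℕ → ℕ} {M : ℕ} (hM : ∀ i, M ≤ i → L i = 0) (j : ℕ) :
    psum (conjShape L) j = ∑ i ∈ range M, min (L i) j := by
  induction j with
  | zero => simp [psum]
  | succ j ih =>
    rw [psum_succ, ih, conjShape_eq hM, card_filter, ← sum_add_distrib]
    exact sum_congr rfl fun i _ => by split <;> omega

theorem isPart_conjShape {L : ℕ → ℕ} {N : ℕ} (hL : IsPart L N) : IsPart (conjShape L) N := by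
  obtain ⟨M, hM, hsum⟩ := hL.eventually_zero
  refine ⟨fun i j hij => ?_, L 0, fun k hk => ?_⟩
  · rw [conjShape_eq hM, conjShape_eq hM]
    refine card_le_card fun t ht => ?_
    simp only [mem_filter] at ht ⊢
    exact ⟨ht.1, by omega⟩
  · rw [psum_conjShape hM, ← hsum M le_rfl]
    exact sum_congr rfl fun i _ => min_eq_left ((hL.1 (Nat.zero_le i)).trans hk)

theorem le_psum_conjShape {L : ℕ → ℕ} {n : ℕ} (hL : IsPart L (tri n)) (hd : Dominated L n)
    (k : ℕ) : rhoSum n k ≤ psum (conjShape L) k := by
  obtain ⟨M, hM, hsum⟩ := hL.eventually_zero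
  rw [psum_conjShape hM]
  set p := conjShape L k
  have hp : ∀ i, i < p ↔ k < L i := fun i => lt_conjShape_iff hL i k
  have hpM : p ≤ M := by
    by_contra hc
    have := (hp M).1 (not_le.1 hc)
    rw [hM M le_rfl] at this
    omega
  have e1 : ∑ i ∈ range M, min (L i) k + psum L p = tri n + p * k := by
    rw [← hsum M le_rfl, psum, psum, ← sum_range_add_sum_Ico (fun i => min (L i) k) hpM,
      ← sum_range_add_sum_Ico L hpM]
    have f1 : ∑ i ∈ range p, min (L i) k = p * k := by
      rw [sum_congr rfl fun i hi => min_eq_right ((hp i).1 (mem_range.1 hi)).le]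
      simp
    have f2 : ∑ i ∈ Ico p M, min (L i) k = ∑ i ∈ Ico p M, L i := by
      refine sum_congr rfl fun i hi => min_eq_left ?_
      by_contra hc
      have := (hp i).2 (not_le.1 hc)
      have := (mem_Ico.1 hi).1
      omega
    rw [f1, f2]
    ring
  have e2 : rhoSum n k + rhoSum n p ≤ tri n + p * k := by
    have hm : rhoSum n k = ∑ i ∈ range n, min (n - i) k := by
      clear e1 hp hd hpM
      induction k with
      | zero => simp [rhoSum, psum]
      | succ j ih =>
        rw [rhoSum_succ, ih]
        have e : n - j = ((range n).filter fun i => j < n - i).card := by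
          have : ((range n).filter fun i => j < n - i) = range (n - j) := by
            ext i
            rw [Finset.mem_filter, mem_range, mem_range]
            omega
          rw [this, card_range]
        rw [e, card_filter, ← sum_add_distrib]
        exact sum_congr rfl fun i _ => by split <;> omega
    rw [hm]
    rcases le_total p n with hpn | hpn
    · rw [tri, rhoSum, rhoSum, psum, psum, ← sum_range_add_sum_Ico (fun i => min (n - i) k) hpn,
        ← sum_range_add_sum_Ico (fun i => n - i) hpn]
      have f1 : ∑ i ∈ range p, min (n - i) k ≤ p * k :=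
        (sum_le_card_nsmul _ _ k fun i _ => min_le_right _ _).trans (by simp)
      have f2 : ∑ i ∈ Ico p n, min (n - i) k ≤ ∑ i ∈ Ico p n, (n - i) :=
        sum_le_sum fun i _ => min_le_left _ _
      omega
    · rw [rhoSum_of_le hpn]
      have f1 : ∑ i ∈ range n, min (n - i) k ≤ n * k :=
        (sum_le_card_nsmul _ _ k fun i _ => min_le_right _ _).trans (by simp)
      have := Nat.mul_le_mul_right k hpn
      omega
  have := hd p
  omega

theorem strip_dominates {K : ℕ → ℕ} {n : ℕ} (hK : IsPart K (tri (n + 1)))
    (hd : ∀ k, rhoSum (n + 1) k ≤ psum K k) :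
    n + 1 ≤ K 0 ∧ ∀ k, rhoSum n k ≤ psum (stripShape K 1 (n + 1)) k := by
  have h0 : n + 1 ≤ K 0 := by simpa [rhoSum, psum] using hd 1
  refine ⟨h0, fun k => ?_⟩
  have h := psum_stripShape hK.1 (h := 1) (K := n + 1) (by simpa [psum] using h0) k
  simp only [psum, sum_range_one, Nat.add_zero] at h
  have h1 := hd k
  have h2 := hd (k + 1)
  rw [rhoSum_succ_succ, psum_succ] at h2
  have := rhoSum_le_succ n k
  simp only [psum] at h1 h2 ⊢
  omega

end Vale.Agent.P197
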