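import Vale.Agent.P197.Core

/-!
# P197: splitting the certificate sum along a block of levels

If a set `O` of positions is the set of positions of level below `n` and lies to the left of the
other positions in every row, then the certificate sum factors.
-/

namespace Vale.Agent.P197

open Equiv Finset

variable {P : Type*} [Fintype P] [DecidableEq P]

/-- A permutation preserves a predicate. -/
def Keeps (O : P → Prop) (σ : Perm P) : Prop := ∀ x, O (σ x) ↔ O x

theorem sum_sdiff_eq_of_sum_eq {α : Type*} [DecidableEq α] {T U : Finset α} {f : α → ℕ}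
    (h : ∑ x ∈ T, f x = ∑ x ∈ U, f x) : ∑ x ∈ T \ U, f x = ∑ x ∈ U \ T, f x := by
  have e1 := Finset.sum_inter_add_sum_sdiff T U f
  have e2 := Finset.sum_inter_add_sum_sdiff U T f
  rw [Finset.inter_comm U T] at e2
  omega

theorem card_sdiff_eq_of_card_eq {α : Type*} [DecidableEq α] {T U : Finset α}
    (h : T.card = U.card) : (T \ U).card = (U \ T).card := by
  simpa using sum_sdiff_eq_of_sum_eq (f := fun _ => 1) (by simpa using h)

omit [Fintype P] in
/-- A set with the same cardinality and level sum as an initial block of levels is that block. -/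
theorem eq_of_sum_lev {f : P → ℕ} {n : ℕ} {T U : Finset P} (hU : ∀ x, x ∈ U ↔ f x < n)
    (hcard : T.card = U.card) (hsum : ∑ x ∈ T, f x = ∑ x ∈ U, f x) : T = U := by
  refine Finset.eq_of_subset_of_card_le (fun x hx => ?_) hcard.ge
  by_contra hxU
  have h1 : (T \ U).card * n ≤ ∑ y ∈ T \ U, f y := by
    refine (le_of_eq ?_).trans (Finset.card_nsmul_le_sum (T \ U) f n fun y hy => ?_)
    · rfl
    · exact not_lt.mp fun hlt => (Finset.mem_sdiff.mp hy).2 ((hU y).mpr hlt)
  have h2 : ∑ y ∈ U \ T, (f y + 1) ≤ (U \ T).card * n :=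
    Finset.sum_le_card_nsmul (U \ T) _ n fun y hy => (hU y).mp (Finset.mem_sdiff.mp hy).1
  have h3 : 0 < (T \ U).card := Finset.card_pos.mpr ⟨x, Finset.mem_sdiff.mpr ⟨hx, hxU⟩⟩
  rw [Finset.sum_add_distrib, Finset.sum_const, smul_eq_mul, mul_one,
    ← sum_sdiff_eq_of_sum_eq hsum, ← card_sdiff_eq_of_card_eq hcard] at h2
  omega

theorem sum_lt_sum_of_forall_lt {α : Type*} {X Y : Finset α} {f : α → ℕ}
    (hcard : Y.card = X.card) (hne : X.Nonempty) (h : ∀ x ∈ X, ∀ y ∈ Y, f y < f x) :
    ∑ y ∈ Y, f y < ∑ x ∈ X, f x := by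
  have hYne : Y.Nonempty := by rw [← Finset.card_pos, hcard, Finset.card_pos]; exact hne
  obtain ⟨x0, hx0, hmin⟩ := Finset.exists_min_image X f hne
  calc ∑ y ∈ Y, f y < ∑ _y ∈ Y, f x0 :=
        Finset.sum_lt_sum_of_nonempty hYne fun y hy => h x0 hx0 y hy
    _ = ∑ _x ∈ X, f x0 := by simp [hcard]
    _ ≤ ∑ x ∈ X, f x := Finset.sum_le_sum hmin

/-- A row permutation which keeps the column sum of a left block keeps the block. -/
theorem keeps_of_col_sum {row col : P → ℕ} {O : P → Prop} [DecidablePred O]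
    (hrow : ∀ x y, row x = row y → O x → ¬ O y → col x < col y) {p : Perm P}
    (hp : ∀ x, row (p x) = row x)
    (hsum : ∑ x ∈ univ.filter O, col (p x) = ∑ x ∈ univ.filter O, col x) : Keeps O p := by
  let U : Finset P := univ.filter O
  let T : Finset P := U.map p.toEmbedding
  have hsum' : ∑ x ∈ T, col x = ∑ x ∈ U, col x := by
    rw [Finset.sum_map]; exact hsum
  have hsd := sum_sdiff_eq_of_sum_eq hsum'
  have hrows : ∀ i, ((T \ U).filter (fun x => row x = i)).card
      = ((U \ T).filter (fun x => row x = i)).card := by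
    intro i
    have hT : (T.filter (fun x => row x = i)).card = (U.filter (fun x => row x = i)).card := by
      rw [Finset.filter_map, Finset.card_map]
      exact congrArg Finset.card (Finset.filter_congr fun x _ => by simp [hp x])
    have := card_sdiff_eq_of_card_eq hT
    have e1 : T.filter (fun x => row x = i) \ U.filter (fun x => row x = i)
        = (T \ U).filter (fun x => row x = i) := by
      ext x; simp only [Finset.mem_sdiff, Finset.mem_filter]; tauto
    have e2 : U.filter (fun x => row x = i) \ T.filter (fun x => row x = i)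
        = (U \ T).filter (fun x => row x = i) := by
      ext x; simp only [Finset.mem_sdiff, Finset.mem_filter]; tauto
    rwa [e1, e2] at this
  have hle : ∀ i, ∑ x ∈ (U \ T).filter (fun x => row x = i), col x
      ≤ ∑ x ∈ (T \ U).filter (fun x => row x = i), col x ∧
      (((T \ U).filter (fun x => row x = i)).Nonempty →
        ∑ x ∈ (U \ T).filter (fun x => row x = i), col x
          < ∑ x ∈ (T \ U).filter (fun x => row x = i), col x) := by
    intro i
    have key : ∀ x ∈ (T \ U).filter (fun x => row x = i),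
        ∀ y ∈ (U \ T).filter (fun x => row x = i), col y < col x := by
      intro x hx y hy
      simp only [Finset.mem_filter, Finset.mem_sdiff] at hx hy
      refine hrow y x (hy.2.trans hx.2.symm) ?_ ?_
      · simpa [U] using hy.1.1
      · simpa [U] using hx.1.2
    refine ⟨?_, fun hne => sum_lt_sum_of_forall_lt (hrows i).symm hne key⟩
    rcases ((T \ U).filter (fun x => row x = i)).eq_empty_or_nonempty with he | hne
    · have : (U \ T).filter (fun x => row x = i) = ∅ := by
        rw [← Finset.card_eq_zero, ← hrows i, he, Finset.card_empty]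
      simp [this, he]
    · exact (sum_lt_sum_of_forall_lt (hrows i).symm hne key).le
  have hTU : T = U := by
    refine Finset.eq_of_subset_of_card_le (fun x hx => ?_) (Finset.card_map _).ge
    by_contra hxU
    let I : Finset ℕ := (T \ U ∪ U \ T).image row
    have hI1 : ∀ y ∈ T \ U, row y ∈ I := fun y hy =>
      Finset.mem_image_of_mem row (Finset.mem_union_left _ hy)
    have hI2 : ∀ y ∈ U \ T, row y ∈ I := fun y hy =>
      Finset.mem_image_of_mem row (Finset.mem_union_right _ hy)
    have hlt : ∑ i ∈ I, ∑ y ∈ (U \ T).filter (fun y => row y = i), col y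
        < ∑ i ∈ I, ∑ y ∈ (T \ U).filter (fun y => row y = i), col y :=
      Finset.sum_lt_sum (fun i _ => (hle i).1) ⟨row x, hI1 x (Finset.mem_sdiff.mpr ⟨hx, hxU⟩),
        (hle (row x)).2 ⟨x, Finset.mem_filter.mpr ⟨Finset.mem_sdiff.mpr ⟨hx, hxU⟩, rfl⟩⟩⟩
    rw [Finset.sum_fiberwise_of_maps_to hI1, Finset.sum_fiberwise_of_maps_to hI2] at hlt
    omega
  intro x
  have := congrArg (fun s : Finset P => p x ∈ s) hTU
  simpa [T, U] using this.symm

omit [DecidableEq P] in
/-- A sum over the stabilizer supported on permutations keeping `O` splits. -/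
theorem sum_gr_split {K : Type*} (f : P → K) (O : P → Prop) [DecidablePred O] (F : Perm P → ℤ)
    (hF : ∀ σ ∈ gr f, F σ ≠ 0 → Keeps O σ) :
    ∑ σ ∈ gr f, F σ = ∑ σ₁ ∈ gr (fun x : {x // O x} => f x),
      ∑ σ₂ ∈ gr (fun x : {x // ¬ O x} => f x), F (Perm.subtypeCongr σ₁ σ₂) := by
  classical
  rw [← Finset.sum_filter_of_ne hF, ← Finset.sum_product']
  refine (Finset.sum_bij (fun s _ => Perm.subtypeCongr s.1 s.2) ?_ ?_ ?_ fun _ _ => rfl).symm
  · rintro ⟨s₁, s₂⟩ hs
    simp only [Finset.mem_product, mem_gr] at hs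
    refine Finset.mem_filter.mpr ⟨mem_gr.mpr fun x => ?_, fun x => ?_⟩
    · by_cases hx : O x
      · rw [Perm.subtypeCongr.left_apply _ _ hx]; exact hs.1 ⟨x, hx⟩
      · rw [Perm.subtypeCongr.right_apply _ _ hx]; exact hs.2 ⟨x, hx⟩
    · by_cases hx : O x
      · rw [Perm.subtypeCongr.left_apply _ _ hx]; exact iff_of_true (s₁ ⟨x, hx⟩).2 hx
      · rw [Perm.subtypeCongr.right_apply _ _ hx]; exact iff_of_false (s₂ ⟨x, hx⟩).2 hx
  · rintro ⟨s₁, s₂⟩ _ ⟨t₁, t₂⟩ _ he
    refine Prod.ext (Equiv.ext fun x => Subtype.ext ?_) (Equiv.ext fun x => Subtype.ext ?_)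
    · have := congrArg (fun σ : Perm P => σ x.1) he
      simpa [Perm.subtypeCongr.left_apply _ _ x.2] using this
    · have := congrArg (fun σ : Perm P => σ x.1) he
      simpa [Perm.subtypeCongr.right_apply _ _ x.2] using this
  · intro σ hσ
    obtain ⟨hm, hk⟩ := Finset.mem_filter.mp hσ
    have hm' := mem_gr.mp hm
    refine ⟨(σ.subtypePerm hk, σ.subtypePerm fun x => not_congr (hk x)),
      Finset.mem_product.mpr ⟨mem_gr.mpr fun x => hm' x.1, mem_gr.mpr fun x => hm' x.1⟩,
      Equiv.ext fun x => ?_⟩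
    by_cases hx : O x
    · rw [Perm.subtypeCongr.left_apply _ _ hx]; rfl
    · rw [Perm.subtypeCongr.right_apply _ _ hx]; rfl

theorem cert_split {P : Type*} [Fintype P] [DecidableEq P] (a b row col : P → ℕ) (n : ℕ)
    (O : P → Prop) [DecidablePred O]
    (hlev : ∀ x, lev a b x < n ↔ O x)
    (hrow : ∀ x y, row x = row y → O x → ¬ O y → col x < col y)
    (h₁ : ({x // O x} → ℕ × ℕ) → ℤ) (h₂ : ({x // ¬ O x} → ℕ × ℕ) → ℤ) :
    ∃ h : (P → ℕ × ℕ) → ℤ, cert a b row col h =
      cert (fun x : {x // O x} => a x) (fun x => b x) (fun x => row x) (fun x => col x) h₁ *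
      cert (fun x : {x // ¬ O x} => a x) (fun x => b x) (fun x => row x) (fun x => col x) h₂ := by
  classical
  let h : (P → ℕ × ℕ) → ℤ := fun φ =>
    if ∀ x, ((φ x).1 < n ↔ O x) ∧ ((φ x).2 < n ↔ O x) then
      h₁ (fun x => φ x) * h₂ (fun x => φ x) else 0
  refine ⟨h, ?_⟩
  let term : Perm P → Perm P → Perm P → Perm P → ℤ := fun r c p q =>
    sgnZ r * sgnZ c * sgnZ q *
      h (fun x => (lev a b (r (q (p x))), lev a b (c (q (p x)))))
  let U : Finset P := univ.filter O
  have key : ∀ r ∈ gr a, ∀ c ∈ gr b, ∀ p ∈ gr row, ∀ q ∈ gr col, term r c p q ≠ 0 →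
      Keeps O r ∧ Keeps O c ∧ Keeps O p ∧ Keeps O q := by
    intro r hr c hc p hp q hq hne
    rw [mem_gr] at hr hc hp hq
    have hcond : ∀ x, (lev a b (r (q (p x))) < n ↔ O x) ∧ (lev a b (c (q (p x))) < n ↔ O x) := by
      by_contra hcon
      exact hne (mul_eq_zero_of_right _ (if_neg hcon))
    let T : Finset P := U.map (p.trans q).toEmbedding
    have hmemT : ∀ y, y ∈ T ↔ O ((p.trans q).symm y) := fun y => by
      rw [Finset.mem_map_equiv]
      simp [U]
    have hgr : ∀ y, O (r y) ↔ y ∈ T := fun y => by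
      rw [← hlev, hmemT, ← (hcond ((p.trans q).symm y)).1,
        show q (p ((p.trans q).symm y)) = y from (p.trans q).apply_symm_apply y]
    have hgc : ∀ y, O (c y) ↔ y ∈ T := fun y => by
      rw [← hlev, hmemT, ← (hcond ((p.trans q).symm y)).2,
        show q (p ((p.trans q).symm y)) = y from (p.trans q).apply_symm_apply y]
    have hmove : ∀ (σ : Perm P), (∀ y, O (σ y) ↔ y ∈ T) → ∀ f : P → ℕ, (∀ y, f (σ y) = f y) →
        ∑ y ∈ T, f y = ∑ y ∈ U, f y := by
      intro σ hσ f hf
      exact Finset.sum_equiv σ (fun y => by simp [U, hσ y]) (fun y _ => (hf y).symm)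
    have hTU : T = U := by
      refine eq_of_sum_lev (f := lev a b) (n := n) (fun x => by simp [U, hlev]) ?_ ?_
      · exact Finset.card_map _
      · simp only [lev, Finset.sum_add_distrib]
        rw [hmove r hgr a hr, hmove c hgc b hc]
    have hkr : Keeps O r := fun y => by simp [hgr y, hTU, U]
    have hkc : Keeps O c := fun y => by simp [hgc y, hTU, U]
    have hkg : ∀ x, O (q (p x)) ↔ O x := fun x => by
      have e : q (p x) ∈ T ↔ O x := by simp [T, U]
      simpa [hTU, U] using e
    have hkp : Keeps O p := by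
      refine keeps_of_col_sum hrow hp ?_
      refine Finset.sum_equiv (p.trans q) (fun x => by simp [hkg x]) (fun x _ => ?_)
      exact (hq (p x)).symm
    refine ⟨hkr, hkc, hkp, fun y => ?_⟩
    have := hkg (p.symm y)
    rw [Equiv.apply_symm_apply] at this
    exact this.trans ((hkp (p.symm y)).symm.trans (by rw [Equiv.apply_symm_apply]))
  have step : cert a b row col h =
      ∑ r₁ ∈ gr (fun x : {x // O x} => a x), ∑ r₂ ∈ gr (fun x : {x // ¬ O x} => a x),
      ∑ c₁ ∈ gr (fun x : {x // O x} => b x), ∑ c₂ ∈ gr (fun x : {x // ¬ O x} => b x),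
      ∑ p₁ ∈ gr (fun x : {x // O x} => row x), ∑ p₂ ∈ gr (fun x : {x // ¬ O x} => row x),
      ∑ q₁ ∈ gr (fun x : {x // O x} => col x), ∑ q₂ ∈ gr (fun x : {x // ¬ O x} => col x),
        term (Perm.subtypeCongr r₁ r₂) (Perm.subtypeCongr c₁ c₂) (Perm.subtypeCongr p₁ p₂)
          (Perm.subtypeCongr q₁ q₂) := by
    have hmem : ∀ {K : Type} (f : P → K) (s : Perm {x // O x}) (t : Perm {x // ¬ O x}),
        s ∈ gr (fun x : {x // O x} => f x) → t ∈ gr (fun x : {x // ¬ O x} => f x) →
          Perm.subtypeCongr s t ∈ gr f := by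
      intro K f s t hs ht
      rw [mem_gr] at hs ht ⊢
      intro x
      by_cases hx : O x
      · rw [Perm.subtypeCongr.left_apply _ _ hx]; exact hs ⟨x, hx⟩
      · rw [Perm.subtypeCongr.right_apply _ _ hx]; exact ht ⟨x, hx⟩
    show ∑ r ∈ gr a, ∑ c ∈ gr b, ∑ p ∈ gr row, ∑ q ∈ gr col, term r c p q = _
    rw [sum_gr_split a O]
    swap
    · intro r hr hne
      obtain ⟨c, hc, hne⟩ := Finset.exists_ne_zero_of_sum_ne_zero hne
      obtain ⟨p, hp, hne⟩ := Finset.exists_ne_zero_of_sum_ne_zero hne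
      obtain ⟨q, hq, hne⟩ := Finset.exists_ne_zero_of_sum_ne_zero hne
      exact (key r hr c hc p hp q hq hne).1
    refine Finset.sum_congr rfl fun r₁ hr₁ => Finset.sum_congr rfl fun r₂ hr₂ => ?_
    have hr := hmem a r₁ r₂ hr₁ hr₂
    rw [sum_gr_split b O]
    swap
    · intro c hc hne
      obtain ⟨p, hp, hne⟩ := Finset.exists_ne_zero_of_sum_ne_zero hne
      obtain ⟨q, hq, hne⟩ := Finset.exists_ne_zero_of_sum_ne_zero hne
      exact (key _ hr c hc p hp q hq hne).2.1
    refine Finset.sum_congr rfl fun c₁ hc₁ => Finset.sum_congr rfl fun c₂ hc₂ => ?_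
    have hc := hmem b c₁ c₂ hc₁ hc₂
    rw [sum_gr_split row O]
    swap
    · intro p hp hne
      obtain ⟨q, hq, hne⟩ := Finset.exists_ne_zero_of_sum_ne_zero hne
      exact (key _ hr _ hc p hp q hq hne).2.2.1
    refine Finset.sum_congr rfl fun p₁ hp₁ => Finset.sum_congr rfl fun p₂ hp₂ => ?_
    have hp := hmem row p₁ p₂ hp₁ hp₂
    exact sum_gr_split col O _ fun q hq hne => (key _ hr _ hc _ hp q hq hne).2.2.2
  rw [step]
  unfold cert
  simp only [Finset.sum_mul_sum]
  refine Finset.sum_congr rfl fun r₁ _ => Finset.sum_congr rfl fun r₂ _ =>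
    Finset.sum_congr rfl fun c₁ _ => Finset.sum_congr rfl fun c₂ _ =>
    Finset.sum_congr rfl fun p₁ _ => Finset.sum_congr rfl fun p₂ _ =>
    Finset.sum_congr rfl fun q₁ _ => Finset.sum_congr rfl fun q₂ _ => ?_
  let φ : P → ℕ × ℕ := fun x =>
    (lev a b (Perm.subtypeCongr r₁ r₂ (Perm.subtypeCongr q₁ q₂ (Perm.subtypeCongr p₁ p₂ x))),
      lev a b (Perm.subtypeCongr c₁ c₂ (Perm.subtypeCongr q₁ q₂ (Perm.subtypeCongr p₁ p₂ x))))
  have eO : (fun x : {x // O x} => φ x) = fun x =>
      (lev (fun y : {y // O y} => a y) (fun y => b y) (r₁ (q₁ (p₁ x))),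
        lev (fun y : {y // O y} => a y) (fun y => b y) (c₁ (q₁ (p₁ x)))) := by
    funext x
    simp [φ, lev, Perm.subtypeCongr.left_apply_subtype]
  have eN : (fun x : {x // ¬ O x} => φ x) = fun x =>
      (lev (fun y : {y // ¬ O y} => a y) (fun y => b y) (r₂ (q₂ (p₂ x))),
        lev (fun y : {y // ¬ O y} => a y) (fun y => b y) (c₂ (q₂ (p₂ x)))) := by
    funext x
    simp [φ, lev, Perm.subtypeCongr.right_apply_subtype]
  have hcond : ∀ x, ((φ x).1 < n ↔ O x) ∧ ((φ x).2 < n ↔ O x) := by
    intro x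
    simp only [φ, hlev]
    by_cases hx : O x
    · have e := congrFun eO ⟨x, hx⟩
      refine ⟨iff_of_true ?_ hx, iff_of_true ?_ hx⟩
      · rw [Perm.subtypeCongr.left_apply _ _ hx, Perm.subtypeCongr.left_apply_subtype,
          Perm.subtypeCongr.left_apply_subtype]
        exact (r₁ _).2
      · rw [Perm.subtypeCongr.left_apply _ _ hx, Perm.subtypeCongr.left_apply_subtype,
          Perm.subtypeCongr.left_apply_subtype]
        exact (c₁ _).2
    · refine ⟨iff_of_false ?_ hx, iff_of_false ?_ hx⟩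
      · rw [Perm.subtypeCongr.right_apply _ _ hx, Perm.subtypeCongr.right_apply_subtype,
          Perm.subtypeCongr.right_apply_subtype]
        exact (r₂ _).2
      · rw [Perm.subtypeCongr.right_apply _ _ hx, Perm.subtypeCongr.right_apply_subtype,
          Perm.subtypeCongr.right_apply_subtype]
        exact (c₂ _).2
  show sgnZ _ * sgnZ _ * sgnZ _ * h φ = _
  rw [show h φ = h₁ (fun x => φ x) * h₂ (fun x => φ x) from if_pos hcond, eO, eN]
  simp only [sgnZ, Perm.sign_subtypeCongr, Units.val_mul]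
  ring

end Vale.Agent.P197
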