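import Vale.Agent.P197.Criterion
import Vale.Agent.P197.Shapes
import Vale.Agent.P197.Split
import Vale.Agent.P197.Inner
import Vale.Agent.P197.Pair

/-! Every partition of the staircase size has a nonzero certificate. -/

namespace Vale.Agent.P197

open Finset Equiv

section Bands

variable {P : Type*} [Fintype P] [DecidableEq P] {a b : P → ℕ}

omit [DecidableEq P] in
theorem IsBand.card_eq {n k : ℕ} (h : IsBand n k a b) :
    Fintype.card P = ∑ l ∈ Finset.Ico n (n + k), (l + 1) := by
  rw [← card_univ, card_eq_sum_card_fiberwise (f := lev a b) (t := Finset.Ico n (n + k))]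
  · refine sum_congr rfl fun l hl => ?_
    rw [mem_Ico] at hl
    rw [← card_range (l + 1)]
    refine card_bij (fun x _ => a x) ?_ ?_ ?_
    · intro x hx
      have hx' := (mem_filter.mp hx).2
      simp only [lev] at hx'
      simp only [mem_range]
      omega
    · intro x hx y hy hxy
      have hx' := (mem_filter.mp hx).2
      have hy' := (mem_filter.mp hy).2
      simp only [lev] at hx' hy'
      exact h.1 (Prod.ext hxy (by change b x = b y; omega))
    · intro u hu
      rw [mem_range] at hu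
      obtain ⟨x, hx, hy⟩ := (h.2 u (l - u)).mpr ⟨by omega, by omega⟩
      exact ⟨x, mem_filter.mpr ⟨mem_univ x, by simp only [lev]; omega⟩, hx⟩
  · intro x _
    have := (h.2 (a x) (b x)).mp ⟨x, rfl, rfl⟩
    simpa [lev] using this

theorem sum_range_succ_eq_tri (n : ℕ) : ∑ l ∈ range n, (l + 1) = tri n := by
  induction n with
  | zero => simp [tri, rhoSum, psum]
  | succ n ih => rw [sum_range_succ, ih, tri_succ]

omit [DecidableEq P] in
theorem IsStair.card_eq {n : ℕ} (h : IsStair n a b) : Fintype.card P = tri n := by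
  rw [IsBand.card_eq h, zero_add, ← range_eq_Ico, sum_range_succ_eq_tri]

omit [DecidableEq P] in
theorem gr_eq_singleton {K : Type*} {f : P → K} (hf : Function.Injective f) : gr f = {1} := by
  refine eq_singleton_iff_unique_mem.mpr ⟨mem_gr.mpr fun _ => rfl, fun σ hσ => ?_⟩
  ext x
  exact hf (by simpa using mem_gr.mp hσ x)

theorem cert_single {k : ℕ} (hab : IsBand k 1 a b) {L L' : ℕ → ℕ} {N N' : ℕ} (hL : IsPart L N)
    (hL' : IsPart L' N') (hle : ∀ i, L' i ≤ L i) (h1 : ∀ i, L (i + 1) ≤ L' i)
    (hcard : N = N' + Fintype.card P) :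
    ∃ row col : P → ℕ, IsSkew L L' row col ∧
      ∃ h : (P → ℕ × ℕ) → ℤ, cert a b row col h ≠ 0 := by
  obtain ⟨row, col, hs⟩ := exists_isSkew hL hL' hle hcard
  refine ⟨row, col, hs, fun _ => 1, ?_⟩
  have hsum : ∀ x, a x + b x = k := fun x => by
    have := (hab.2 (a x) (b x)).mp ⟨x, rfl, rfl⟩
    omega
  have ha : Function.Injective a := fun x y hxy => hab.1 (Prod.ext hxy (by
    change b x = b y
    have := hsum x
    have := hsum y
    omega))
  have hb : Function.Injective b := fun x y hxy => hab.1 (Prod.ext (by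
    change a x = a y
    have := hsum x
    have := hsum y
    omega) hxy)
  have key : ∀ x y, col x = col y → ¬ row x < row y := by
    intro x y hxy hlt
    have hx := (hs.2 (row x) (col x)).mp ⟨x, rfl, rfl⟩
    have hy := (hs.2 (row y) (col y)).mp ⟨y, rfl, rfl⟩
    have := h1 (row x)
    have := hL.1 (show row x + 1 ≤ row y by omega)
    omega
  have hc : Function.Injective col := fun x y hxy => hs.1 (Prod.ext (le_antisymm
    (not_lt.mp (key y x hxy.symm)) (not_lt.mp (key x y hxy))) hxy)
  simp only [cert, gr_eq_singleton ha, gr_eq_singleton hb, gr_eq_singleton hc, sum_singleton]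
  simp only [sgnZ, Perm.sign_one, Units.val_one, mul_one, sum_const, nsmul_eq_mul]
  exact_mod_cast (card_pos.mpr ⟨1, mem_gr.mpr fun _ => rfl⟩).ne'

theorem combine {n n' k : ℕ} (hn : n' + k = n) (hab : IsStair n a b) {L L' : ℕ → ℕ}
    (hle : ∀ i, L' i ≤ L i)
    (hin : IsStair n' (fun x : {x // lev a b x < n'} => a x) (fun x => b x) →
      ∃ row col : {x // lev a b x < n'} → ℕ, IsShape L' row col ∧
        ∃ h, cert (fun x : {x // lev a b x < n'} => a x) (fun x => b x) row col h ≠ 0)
    (hout : IsBand n' k (fun x : {x // ¬ lev a b x < n'} => a x) (fun x => b x) →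
      ∃ row col : {x // ¬ lev a b x < n'} → ℕ, IsSkew L L' row col ∧
        ∃ h, cert (fun x : {x // ¬ lev a b x < n'} => a x) (fun x => b x) row col h ≠ 0) :
    ∃ row col : P → ℕ, IsShape L row col ∧
      ∃ h : (P → ℕ × ℕ) → ℤ, cert a b row col h ≠ 0 := by
  obtain ⟨r₁, c₁, hs₁, h₁, hne₁⟩ := hin ⟨fun x y hxy => Subtype.ext (hab.1 hxy), fun u v => by
    constructor
    · rintro ⟨⟨x, hx⟩, rfl, rfl⟩
      simpa [lev] using hx
    · intro huv
      obtain ⟨x, rfl, rfl⟩ := (hab.2 u v).mpr ⟨by omega, by omega⟩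
      exact ⟨⟨x, by simp only [lev]; omega⟩, rfl, rfl⟩⟩
  obtain ⟨r₂, c₂, hs₂, h₂, hne₂⟩ := hout ⟨fun x y hxy => Subtype.ext (hab.1 hxy), fun u v => by
    constructor
    · rintro ⟨⟨x, hx⟩, rfl, rfl⟩
      have := (hab.2 (a x) (b x)).mp ⟨x, rfl, rfl⟩
      simp only [lev] at hx
      dsimp only
      omega
    · intro huv
      obtain ⟨x, rfl, rfl⟩ := (hab.2 u v).mpr ⟨by omega, by omega⟩
      exact ⟨⟨x, by simp only [lev]; omega⟩, rfl, rfl⟩⟩
  let row : P → ℕ := fun x => if hx : lev a b x < n' then r₁ ⟨x, hx⟩ else r₂ ⟨x, hx⟩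
  let col : P → ℕ := fun x => if hx : lev a b x < n' then c₁ ⟨x, hx⟩ else c₂ ⟨x, hx⟩
  have hin' : ∀ {x} (hx : lev a b x < n'), row x = r₁ ⟨x, hx⟩ ∧ col x = c₁ ⟨x, hx⟩ :=
    fun hx => ⟨dif_pos hx, dif_pos hx⟩
  have hout' : ∀ {x} (hx : ¬ lev a b x < n'), row x = r₂ ⟨x, hx⟩ ∧ col x = c₂ ⟨x, hx⟩ :=
    fun hx => ⟨dif_neg hx, dif_neg hx⟩
  have m₁ : ∀ x, lev a b x < n' → col x < L' (row x) := fun x hx => by
    rw [(hin' hx).1, (hin' hx).2]
    exact ((hs₁.2 _ _).mp ⟨_, rfl, rfl⟩).2
  have m₂ : ∀ x, ¬ lev a b x < n' → L' (row x) ≤ col x ∧ col x < L (row x) := fun x hx => by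
    rw [(hout' hx).1, (hout' hx).2]
    exact (hs₂.2 _ _).mp ⟨_, rfl, rfl⟩
  obtain ⟨h, hh⟩ := cert_split a b row col n' (fun x => lev a b x < n') (fun _ => Iff.rfl)
    (fun x y hxy hx hy => by
      have e₁ := m₁ x hx
      have e₂ := (m₂ y hy).1
      rw [hxy] at e₁
      omega) h₁ h₂
  refine ⟨row, col, ⟨fun x y hxy => ?_, fun i j => ?_⟩, h, ?_⟩
  · have e₁ : row x = row y := congrArg Prod.fst hxy
    have e₂ : col x = col y := congrArg Prod.snd hxy
    by_cases hx : lev a b x < n' <;> by_cases hy : lev a b y < n'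
    · rw [(hin' hx).1, (hin' hy).1] at e₁
      rw [(hin' hx).2, (hin' hy).2] at e₂
      exact congrArg Subtype.val (hs₁.1 (Prod.ext e₁ e₂))
    · have q₁ := m₁ x hx
      have q₂ := m₂ y hy
      rw [e₁] at q₁
      omega
    · have q₁ := m₁ y hy
      have q₂ := m₂ x hx
      rw [← e₁] at q₁
      omega
    · rw [(hout' hx).1, (hout' hy).1] at e₁
      rw [(hout' hx).2, (hout' hy).2] at e₂
      exact congrArg Subtype.val (hs₂.1 (Prod.ext e₁ e₂))
  · constructor
    · rintro ⟨x, rfl, rfl⟩
      refine ⟨Nat.zero_le _, ?_⟩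
      by_cases hx : lev a b x < n'
      · exact (m₁ x hx).trans_le (hle _)
      · exact (m₂ x hx).2
    · rintro ⟨-, hj⟩
      by_cases hj' : j < L' i
      · obtain ⟨⟨x, hx⟩, rfl, rfl⟩ := (hs₁.2 i j).mpr ⟨Nat.zero_le _, hj'⟩
        exact ⟨x, (hin' hx).1, (hin' hx).2⟩
      · obtain ⟨⟨x, hx⟩, rfl, rfl⟩ := (hs₂.2 i j).mpr ⟨not_lt.mp hj', hj⟩
        exact ⟨x, (hout' hx).1, (hout' hx).2⟩
  · rw [hh]
    have er₁ : (fun x : {x // lev a b x < n'} => row x) = r₁ := funext fun x => (hin' x.2).1
    have ec₁ : (fun x : {x // lev a b x < n'} => col x) = c₁ := funext fun x => (hin' x.2).2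
    have er₂ : (fun x : {x // ¬ lev a b x < n'} => row x) = r₂ := funext fun x => (hout' x.2).1
    have ec₂ : (fun x : {x // ¬ lev a b x < n'} => col x) = c₂ := funext fun x => (hout' x.2).2
    rw [er₁, ec₁, er₂, ec₂]
    exact mul_ne_zero hne₁ hne₂

end Bands

/-- Greedy covering: single levels, pairs of levels, then one dominated inner staircase. -/
theorem exists_cert : ∀ (n : ℕ) {P : Type} [Fintype P] [DecidableEq P] (a b : P → ℕ),
    IsStair n a b → ∀ {L : ℕ → ℕ}, IsPart L (tri n) →
      ∃ row col : P → ℕ, IsShape L row col ∧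
        ∃ h : (P → ℕ × ℕ) → ℤ, cert a b row col h ≠ 0 := by
  intro n
  induction n using Nat.strong_induction_on with
  | _ n ih =>
  intro P _ _ a b hab L hL
  by_cases h1 : 1 ≤ n ∧ n ≤ L 0
  · obtain ⟨k, rfl⟩ : ∃ k, n = k + 1 := ⟨n - 1, by omega⟩
    obtain ⟨hL', -, hle⟩ := stripShape_spec hL (h := 1) (K := k + 1) one_pos
      (by simpa [psum] using h1.2)
    rw [tri_succ, Nat.add_sub_cancel] at hL'
    refine combine (k := 1) rfl hab (fun i => (hle i).1)
      (fun hI => ih k (by omega) _ _ hI hL')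
      (fun hO => cert_single hO hL hL' (fun i => (hle i).1) (fun i => (hle i).2) ?_)
    rw [hO.card_eq, tri_succ]
    simp
  by_cases h4 : 2 ≤ n ∧ 2 * n - 1 ≤ psum L 4
  · obtain ⟨k, rfl⟩ : ∃ k, n = k + 2 := ⟨n - 2, by omega⟩
    obtain ⟨hL', -, hle⟩ := stripShape_spec hL (h := 4) (K := 2 * (k + 2) - 1) (by omega) h4.2
    have et : tri (k + 2) = tri k + (2 * (k + 2) - 1) := by
      rw [tri_succ, tri_succ]
      omega
    rw [et, Nat.add_sub_cancel] at hL'
    refine combine (k := 2) rfl hab (fun i => (hle i).1)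
      (fun hI => ih k (by omega) _ _ hI hL')
      (fun hO => cert_pair _ _ k hO hL hL' (fun i => (hle i).1) (fun i => (hle i).2) ?_)
    rw [hO.card_eq, et, Finset.sum_Ico_succ_top (by omega), Nat.Ico_succ_singleton, sum_singleton]
    omega
  refine cert_inner a b n hab hL (dominated_of_stuck hL ?_ ?_)
  · omega
  · rcases Nat.lt_or_ge n 2 with hn | hn
    · rcases Nat.eq_zero_or_pos n with h0 | h0
      · exact Or.inr h0
      · exfalso
        obtain rfl : n = 1 := by omega
        obtain ⟨M, hz, hs⟩ := hL.eventually_zero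
        have e0 : L 0 = 0 := by omega
        have := hs M le_rfl
        have e : psum L M = 0 := Finset.sum_eq_zero fun i _ => by
          have := hL.1 (Nat.zero_le i)
          omega
        have : tri 1 = 1 := rfl
        omega
    · omega

theorem tri_eq (m : ℕ) : m * (m + 1) / 2 = tri m := by
  have h := two_rhoSum (le_refl m)
  have e : 2 * m * m = m * m + m * m := by ring
  rw [tri]
  have e' : m * (m + 1) = m * m + m := by ring
  omega

/-- Saxl's conjecture: every irreducible occurs in the square of the staircase one. -/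
theorem kronecker_staircase_pos (m : ℕ) (ν : (m * (m + 1) / 2).Partition) :
    0 < kronecker (staircase m) (staircase m) ν := by
  classical
  let P : Type := ((range m ×ˢ range m).filter fun c => c.1 + c.2 < m : Finset (ℕ × ℕ))
  have hab : IsStair m (fun x : P => x.1.1) (fun x => x.1.2) := by
    refine ⟨fun x y hxy => Subtype.ext hxy, fun u v => ⟨?_, ?_⟩⟩
    · rintro ⟨⟨c, hc⟩, rfl, rfl⟩
      simp only [mem_filter] at hc
      exact ⟨Nat.zero_le _, by dsimp only; omega⟩
    · intro huv
      exact ⟨⟨(u, v), by simp only [mem_filter, mem_product, mem_range]; omega⟩, rfl, rfl⟩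
  have hL : IsPart (diagram ν).rowLen (tri m) := by
    refine ⟨fun i j hij => (diagram ν).rowLen_anti i j hij, m * (m + 1) / 2, fun k hk => ?_⟩
    refine Eq.trans ?_ ((card_diagram ν).trans (tri_eq m))
    have hsig : (diagram ν).cells.card =
        ((range k).sigma fun i => range ((diagram ν).rowLen i)).card := by
      refine card_nbij' (fun c => (⟨c.1, c.2⟩ : Sigma fun _ : ℕ => ℕ)) (fun s => (s.1, s.2))
        ?_ ?_ ?_ ?_
      · intro c hc
        have hmem : c ∈ diagram ν := ((diagram ν).mem_cells c).mp hc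
        simp only [mem_coe, mem_sigma, mem_range]
        refine ⟨?_, YoungDiagram.mem_iff_lt_rowLen.mp hmem⟩
        have hsub : ((range (c.1 + 1)).image fun i => (i, c.2)) ⊆ (diagram ν).cells := by
          intro d hd
          simp only [mem_image, mem_range] at hd
          obtain ⟨i, hi, rfl⟩ := hd
          exact ((diagram ν).mem_cells _).mpr ((diagram ν).up_left_mem (by omega) le_rfl hmem)
        have := card_le_card hsub
        rw [card_image_of_injective _ (fun x y hxy => congrArg Prod.fst hxy), card_range,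
          card_diagram] at this
        omega
      · intro s hs
        simp only [mem_coe, mem_sigma, mem_range] at hs
        exact ((diagram ν).mem_cells _).mpr (YoungDiagram.mem_iff_lt_rowLen.mpr hs.2)
      · intro c _; rfl
      · intro s _; rfl
    rw [hsig, card_sigma]
    simp [psum]
  obtain ⟨row, col, hs, h, hne⟩ := exists_cert m _ _ hab hL
  exact kronecker_pos_of_cert hab hs hne

end Vale.Agent.P197
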